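import Mathlib

/-! Abstract Eulerian triangulations of the sphere (duals of cubic bipartite planar maps) and the
rank inequalities used in place of the Jordan curve theorem. -/

set_option autoImplicit false
set_option linter.unusedSectionVars false
open Finset

namespace Crest.Agent.R039

/-- A linear map that is injective from functions supported on `S` to their values on `T`
forces `|S| ≤ |T|`. -/
theorem card_le_of_inj {X Y : Type} [Fintype X] [Fintype Y] [DecidableEq X] [DecidableEq Y]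
    (Φ : (X → ℚ) →ₗ[ℚ] (Y → ℚ)) (S : Finset X) (T : Finset Y)
    (h : ∀ f : X → ℚ, (∀ x, x ∉ S → f x = 0) → (∀ y ∈ T, Φ f y = 0) → f = 0) :
    S.card ≤ T.card := by
  let ext : (S → ℚ) →ₗ[ℚ] (X → ℚ) :=
    { toFun := fun g x => if hx : x ∈ S then g ⟨x, hx⟩ else 0
      map_add' := by
        intro a b; funext x; by_cases hx : x ∈ S <;> simp [hx]
      map_smul' := by
        intro a b; funext x; by_cases hx : x ∈ S <;> simp [hx] }
  let res : (Y → ℚ) →ₗ[ℚ] (T → ℚ) := LinearMap.funLeft ℚ ℚ Subtype.val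
  have hinj : Function.Injective (res ∘ₗ Φ ∘ₗ ext) := by
    rw [← LinearMap.ker_eq_bot, LinearMap.ker_eq_bot']
    intro g hg
    have h0 : ext g = 0 := by
      apply h
      · intro x hx; simp [ext, hx]
      · intro y hy
        have := congrFun hg ⟨y, hy⟩
        simpa [res] using this
    funext x
    have := congrFun h0 x.1
    simpa [ext, x.2] using this
  have := LinearMap.finrank_le_finrank_of_injective hinj
  simpa using this

/-- Surjectivity version of `card_le_of_inj`. -/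
theorem surj_of_inj {X Y : Type} [Fintype X] [Fintype Y] [DecidableEq X] [DecidableEq Y]
    (Φ : (X → ℚ) →ₗ[ℚ] (Y → ℚ)) (S : Finset X)
    (h : ∀ f : X → ℚ, (∀ x, x ∉ S → f x = 0) → Φ f = 0 → f = 0)
    (hc : Fintype.card Y ≤ S.card) (y : Y → ℚ) : ∃ f, Φ f = y := by
  let ext : (S → ℚ) →ₗ[ℚ] (X → ℚ) :=
    { toFun := fun g x => if hx : x ∈ S then g ⟨x, hx⟩ else 0
      map_add' := by
        intro a b; funext x; by_cases hx : x ∈ S <;> simp [hx]
      map_smul' := by
        intro a b; funext x; by_cases hx : x ∈ S <;> simp [hx] }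
  have hinj : Function.Injective (Φ ∘ₗ ext) := by
    rw [← LinearMap.ker_eq_bot, LinearMap.ker_eq_bot']
    intro g hg
    have h0 : ext g = 0 := by
      apply h
      · intro x hx; simp [ext, hx]
      · simpa using hg
    funext x
    have := congrFun h0 x.1
    simpa [ext, x.2] using this
  have hle := LinearMap.finrank_le_finrank_of_injective hinj
  have heq : Module.finrank ℚ (S → ℚ) = Module.finrank ℚ (Y → ℚ) := by
    apply le_antisymm hle
    simpa using hc
  have hs := (LinearMap.injective_iff_surjective_of_finrank_eq_finrank heq).1 hinj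
  obtain ⟨g, hg⟩ := hs y
  exact ⟨ext g, hg⟩

/-- Arcs `E` split in two ways into directed triangles (black ones `B`, white ones `W`). -/
structure Tri (E B W V : Type) where
  bE : B × Fin 3 ≃ E
  wE : W × Fin 3 ≃ E
  tl : E → V
  hd : E → V
  hb : ∀ t i, hd (bE (t, i)) = tl (bE (t, i + 1))
  hw : ∀ w j, hd (wE (w, j)) = tl (wE (w, j + 1))

namespace Tri

variable {E B W V : Type} (T : Tri E B W V)

def β (e : E) : B := (T.bE.symm e).1
def ω (e : E) : W := (T.wE.symm e).1

@[simp] theorem β_bE (t : B) (i : Fin 3) : T.β (T.bE (t, i)) = t := by simp [β]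
@[simp] theorem ω_wE (t : W) (i : Fin 3) : T.ω (T.wE (t, i)) = t := by simp [ω]

theorem exists_bE (e : E) : ∃ i, e = T.bE (T.β e, i) :=
  ⟨(T.bE.symm e).2, by simp [β]⟩

theorem exists_wE (e : E) : ∃ i, e = T.wE (T.ω e, i) :=
  ⟨(T.wE.symm e).2, by simp [ω]⟩

def swap : Tri E W B V where
  bE := T.wE
  wE := T.bE
  tl := T.tl
  hd := T.hd
  hb := T.hw
  hw := T.hb

@[simp] theorem swap_β : T.swap.β = T.ω := rfl
@[simp] theorem swap_ω : T.swap.ω = T.β := rfl
@[simp] theorem swap_tl : T.swap.tl = T.tl := rfl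
@[simp] theorem swap_hd : T.swap.hd = T.hd := rfl

/-- The bipartite graph on `B ⊕ W` with the arcs outside `M` as edges is connected. -/
def ConnOff (M : Set E) : Prop :=
  ∀ (P : B → Prop) (Q : W → Prop), (∀ e, e ∉ M → (P (T.β e) ↔ Q (T.ω e))) → ∀ t w, (P t ↔ Q w)

theorem ConnOff.swap {T : Tri E B W V} {M : Set E} (h : T.ConnOff M) : T.swap.ConnOff M := by
  intro P Q hPQ t w
  exact (h Q P (fun e he => (hPQ e he).symm) w t).symm

theorem ConnOff.eq {T : Tri E B W V} {M : Set E} (h : T.ConnOff M) {α : Type*} (f : B → α)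
    (g : W → α) (hfg : ∀ e, e ∉ M → f (T.β e) = g (T.ω e)) (t : B) (w : W) : f t = g w :=
  (h (fun t => f t = g w) (fun w' => g w' = g w) (fun e he => by rw [hfg e he]) t w).2 rfl

/-- `M` is a perfect matching of the bipartite graph. -/
def IsPM (M : Set E) : Prop :=
  (∀ t, ∃! e, e ∈ M ∧ T.β e = t) ∧ (∀ w, ∃! e, e ∈ M ∧ T.ω e = w)

theorem IsPM.swap {T : Tri E B W V} {M : Set E} (h : T.IsPM M) : T.swap.IsPM M := ⟨h.2, h.1⟩

variable [Fintype E] [Fintype B] [Fintype W]

theorem sum_b {α : Type*} [AddCommMonoid α] (f : E → α) :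
    ∑ e, f e = ∑ t, ∑ i, f (T.bE (t, i)) := by
  rw [← T.bE.sum_comp, Fintype.sum_prod_type]

theorem sum_w {α : Type*} [AddCommMonoid α] (f : E → α) :
    ∑ e, f e = ∑ t, ∑ i, f (T.wE (t, i)) := T.swap.sum_b f

include T in
theorem card_E : Fintype.card E = 3 * Fintype.card B := by
  rw [← Fintype.card_congr T.bE]; simp [mul_comm]

include T in
theorem card_W : Fintype.card W = Fintype.card B := by
  have h1 := T.card_E
  have h2 := T.swap.card_E
  omega

omit [Fintype E] [Fintype B] [Fintype W] in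
theorem tri_b (h : V → ℚ) (t : B) : ∑ i, (h (T.hd (T.bE (t, i))) - h (T.tl (T.bE (t, i)))) = 0 := by
  simp only [T.hb, Fin.sum_univ_three]
  have : (2 : Fin 3) + 1 = 0 := rfl
  have h1 : (1 : Fin 3) + 1 = 2 := rfl
  have h0 : (0 : Fin 3) + 1 = 1 := rfl
  rw [this, h1, h0]; ring

theorem orth_b (p : B → ℚ) (h : V → ℚ) :
    ∑ e, p (T.β e) * (h (T.hd e) - h (T.tl e)) = 0 := by
  rw [T.sum_b]
  apply Finset.sum_eq_zero
  intro t _
  simp only [β_bE]
  rw [← Finset.mul_sum, T.tri_b, mul_zero]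

theorem orth (p : B → ℚ) (q : W → ℚ) (h : V → ℚ) :
    ∑ e, (p (T.β e) - q (T.ω e)) * (h (T.hd e) - h (T.tl e)) = 0 := by
  simp only [sub_mul, Finset.sum_sub_distrib]
  have h2 := T.swap.orth_b q h
  simp only [swap_β, swap_tl, swap_hd] at h2
  rw [T.orth_b, h2, sub_zero]

theorem card_filter_β [DecidableEq B] (P : Finset B) :
    (univ.filter fun e => T.β e ∈ P).card = 3 * P.card := by
  rw [Finset.card_filter, T.sum_b]
  simp only [β_bE, Finset.sum_const, Finset.card_univ, Fintype.card_fin, smul_eq_mul]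
  rw [← Finset.mul_sum, ← Finset.card_filter]
  simp

theorem card_filter_ω [DecidableEq W] (P : Finset W) :
    (univ.filter fun e => T.ω e ∈ P).card = 3 * P.card := T.swap.card_filter_β P

/-- The coboundary-plus-boundary map. -/
def Phi : (B ⊕ W ⊕ V → ℚ) →ₗ[ℚ] (E → ℚ) where
  toFun f e := (f (.inl (T.β e)) - f (.inr (.inl (T.ω e)))) +
    (f (.inr (.inr (T.hd e))) - f (.inr (.inr (T.tl e))))
  map_add' a b := by funext e; simp; ring
  map_smul' a b := by funext e; simp; ring

variable [DecidableEq E] [DecidableEq B] [DecidableEq W] [DecidableEq V]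

omit [DecidableEq E] [DecidableEq V] in
theorem Phi_inj (hc : T.ConnOff ∅) (P : Finset B) (Q : Finset W) (U : Finset V)
    (hne : (∃ t, t ∉ P) ∨ (∃ w, w ∉ Q)) (E1 : Finset E)
    (hE1 : ∀ e, T.β e ∈ P ∨ T.ω e ∈ Q → e ∈ E1)
    (hU : ∀ h : V → ℚ, (∀ e ∈ E1, h (T.hd e) = h (T.tl e)) → (∀ v, v ∉ U → h v = 0) →
      ∀ v, h v = 0)
    (f : B ⊕ W ⊕ V → ℚ) (hf : ∀ x, x ∉ P.disjSum (Q.disjSum U) → f x = 0)
    (h0 : ∀ e ∈ E1, T.Phi f e = 0) : f = 0 := by
  have hP : ∀ t, t ∉ P → f (.inl t) = 0 := fun t ht => hf _ (by simpa using ht)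
  have hQ : ∀ t, t ∉ Q → f (.inr (.inl t)) = 0 := fun t ht => hf _ (by simpa using ht)
  have hV : ∀ t, t ∉ U → f (.inr (.inr t)) = 0 := fun t ht => hf _ (by simpa using ht)
  have ho := T.orth (fun t => f (.inl t)) (fun w => f (.inr (.inl w))) (fun v => f (.inr (.inr v)))
  set c : E → ℚ := fun e => f (.inl (T.β e)) - f (.inr (.inl (T.ω e))) with hcdef
  set d : E → ℚ := fun e => f (.inr (.inr (T.hd e))) - f (.inr (.inr (T.tl e))) with hddef
  have hcd : ∀ e ∈ E1, c e + d e = 0 := h0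
  have hsq : ∑ e, c e * c e = 0 := by
    have : ∀ e, c e * c e = - (c e * d e) := by
      intro e
      by_cases he : e ∈ E1
      · have := hcd e he
        have h' : d e = - c e := by linarith
        rw [h']; ring
      · have h1 : T.β e ∉ P := fun h => he (hE1 e (Or.inl h))
        have h2 : T.ω e ∉ Q := fun h => he (hE1 e (Or.inr h))
        have : c e = 0 := by simp [hcdef, hP _ h1, hQ _ h2]
        simp [this]
    simp only [this, Finset.sum_neg_distrib]
    rw [neg_eq_zero]; exact ho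
  have hc0 : ∀ e, c e = 0 := by
    intro e
    have := (Finset.sum_eq_zero_iff_of_nonneg (fun e _ => mul_self_nonneg (c e))).1 hsq e
      (Finset.mem_univ e)
    exact mul_self_eq_zero.1 this
  have hall : ∀ t w, f (.inl t) = f (.inr (.inl w)) :=
    hc.eq (fun t => f (.inl t)) (fun w => f (.inr (.inl w))) (fun e _ => sub_eq_zero.1 (hc0 e))
  have hvv : ∀ v, f (.inr (.inr v)) = 0 := by
    apply hU (fun v => f (.inr (.inr v))) _ hV
    intro e he
    have := hcd e he
    rw [hc0 e, zero_add] at this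
    exact sub_eq_zero.1 this
  funext x
  rcases x with t | w | v
  · rcases hne with ⟨t', ht'⟩ | ⟨w', hw'⟩
    · rw [hall t (T.ω (T.bE (t, 0))), ← hall t', hP t' ht']; rfl
    · rw [hall t w', hQ w' hw']; rfl
  · rcases hne with ⟨t', ht'⟩ | ⟨w', hw'⟩
    · rw [← hall t', hP t' ht']; rfl
    · rw [← hall (T.β (T.wE (w, 0))), hall _ w', hQ w' hw']; rfl
  · exact hvv v

/-- Euler characteristic inequality for a connected proper subcomplex. -/
theorem chi_le [Fintype V] (hc : T.ConnOff ∅) (P : Finset B) (Q : Finset W) (U : Finset V)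
    (hne : (∃ t, t ∉ P) ∨ (∃ w, w ∉ Q)) (E1 : Finset E)
    (hE1 : ∀ e, T.β e ∈ P ∨ T.ω e ∈ Q → e ∈ E1)
    (hU : ∀ h : V → ℚ, (∀ e ∈ E1, h (T.hd e) = h (T.tl e)) → ∀ u ∈ U, ∀ u' ∈ U, h u = h u') :
    P.card + Q.card + U.card ≤ E1.card + 1 := by
  rcases U.eq_empty_or_nonempty with rfl | ⟨u0, hu0⟩
  · have := card_le_of_inj T.Phi (P.disjSum (Q.disjSum ∅)) E1
      (T.Phi_inj hc P Q ∅ hne E1 hE1 (fun h _ h0 v => h0 v (by simp)))
    simp at this ⊢; omega
  · have := card_le_of_inj T.Phi (P.disjSum (Q.disjSum (U.erase u0))) E1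
      (T.Phi_inj hc P Q (U.erase u0) hne E1 hE1 (fun h h1 h0 v => by
        by_cases hv : v ∈ U
        · rw [hU h h1 v hv u0 hu0]; exact h0 u0 (by simp)
        · exact h0 v (by simp [hv])))
    have h2 := Finset.card_erase_add_one hu0
    simp only [Finset.card_disjSum] at this
    omega

omit [Fintype E] [Fintype B] [Fintype W] [DecidableEq E] [DecidableEq B] [DecidableEq W]
  [DecidableEq V] in
theorem const_b (h : V → ℚ) (t : B) (H : ∀ i, h (T.hd (T.bE (t, i))) = h (T.tl (T.bE (t, i))))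
    (i : Fin 3) : h (T.tl (T.bE (t, i))) = h (T.tl (T.bE (t, 0))) := by
  have h0 := H 0
  have h1 := H 1
  rw [T.hb] at h0 h1
  fin_cases i
  · rfl
  · exact h0
  · exact h1.trans h0

omit [Fintype E] [Fintype B] [Fintype W] [DecidableEq E] [DecidableEq B] [DecidableEq W]
  [DecidableEq V] in
theorem const_w (h : V → ℚ) (t : W) (H : ∀ i, h (T.hd (T.wE (t, i))) = h (T.tl (T.wE (t, i))))
    (i : Fin 3) : h (T.tl (T.wE (t, i))) = h (T.tl (T.wE (t, 0))) := T.swap.const_b h t H i

omit [Fintype E] [Fintype B] [Fintype W] [DecidableEq E] [DecidableEq B] [DecidableEq W]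
  [DecidableEq V] in
theorem const_all (hc : T.ConnOff ∅) (h : V → ℚ) (H : ∀ e, h (T.hd e) = h (T.tl e)) (e e' : E) :
    h (T.tl e) = h (T.tl e') := by
  have key : ∀ e, h (T.tl e) = h (T.tl (T.bE (T.β e, 0))) ∧
      h (T.tl e) = h (T.tl (T.wE (T.ω e, 0))) := by
    intro e
    obtain ⟨i, hi⟩ := T.exists_bE e
    obtain ⟨j, hj⟩ := T.exists_wE e
    constructor
    · conv_lhs => rw [hi]
      exact T.const_b h _ (fun i => H _) i
    · conv_lhs => rw [hj]
      exact T.const_w h _ (fun i => H _) j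
  have := hc.eq (fun t => h (T.tl (T.bE (t, 0)))) (fun t => h (T.tl (T.wE (t, 0))))
    (fun e _ => (key e).1.symm.trans (key e).2) (T.β e) (T.ω e')
  rw [(key e).1, (key e').2]; exact this

/-- `χ ≤ 2`. -/
theorem card_V_le [Fintype V] (hc : T.ConnOff ∅) (t0 : B) :
    (univ.image T.tl).card ≤ Fintype.card B + 2 := by
  have := T.chi_le hc (univ.erase t0) univ (univ.image T.tl) (Or.inl ⟨t0, by simp⟩) univ
    (fun e _ => mem_univ e) (fun h H u hu u' hu' => by
      obtain ⟨e, -, rfl⟩ := Finset.mem_image.1 hu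
      obtain ⟨e', -, rfl⟩ := Finset.mem_image.1 hu'
      exact T.const_all hc h (fun e => H e (mem_univ e)) e e')
  have h2 := Finset.card_erase_add_one (mem_univ t0)
  have h3 := T.card_E
  have h4 := T.card_W
  simp only [Finset.card_univ] at this h2
  omega

/-- Hodge decomposition when `χ = 2`. -/
theorem hodge [Fintype V] (hc : T.ConnOff ∅) (t0 : B)
    (he : Fintype.card B + 2 ≤ (univ.image T.tl).card) (y : E → ℚ) :
    ∃ (p : B → ℚ) (q : W → ℚ) (h : V → ℚ), ∀ e,
      y e = (p (T.β e) - q (T.ω e)) + (h (T.hd e) - h (T.tl e)) := by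
  set u0 := T.tl (T.bE (t0, 0))
  have hu0 : u0 ∈ univ.image T.tl := Finset.mem_image_of_mem _ (mem_univ _)
  obtain ⟨f, hf⟩ := surj_of_inj T.Phi
    ((univ.erase t0).disjSum (univ.disjSum ((univ.image T.tl).erase u0)))
    (fun f hf h0 => T.Phi_inj hc (univ.erase t0) univ ((univ.image T.tl).erase u0)
      (Or.inl ⟨t0, by simp⟩) univ (fun e _ => mem_univ e) (fun h h1 h0 v => by
        by_cases hv : v ∈ univ.image T.tl
        · obtain ⟨e, -, rfl⟩ := Finset.mem_image.1 hv
          rw [T.const_all hc h (fun e => h1 e (mem_univ e)) e (T.bE (t0, 0))]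
          exact h0 u0 (by simp)
        · exact h0 v (by simp only [Finset.mem_erase, hv]; simp)) f hf
      (fun e _ => by rw [h0]; rfl)) (by
      have h2 := Finset.card_erase_add_one (mem_univ t0)
      have h5 := Finset.card_erase_add_one hu0
      have h3 := T.card_E
      have h4 := T.card_W
      simp only [Finset.card_univ, Finset.card_disjSum] at h2 ⊢
      omega) y
  exact ⟨fun t => f (.inl t), fun w => f (.inr (.inl w)), fun v => f (.inr (.inr v)),
    fun e => (congrFun hf e).symm⟩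

/-- Cycles are boundaries. -/
theorem h1a [Fintype V] (hc : T.ConnOff ∅) (t0 : B)
    (he : Fintype.card B + 2 ≤ (univ.image T.tl).card) (z : E → ℚ)
    (hz : ∀ h : V → ℚ, ∑ e, z e * (h (T.hd e) - h (T.tl e)) = 0) :
    ∃ (p : B → ℚ) (q : W → ℚ), ∀ e, z e = p (T.β e) - q (T.ω e) := by
  obtain ⟨p, q, h, H⟩ := T.hodge hc t0 he z
  have h1 := hz h
  have h2 := T.orth p q h
  have h3 : ∑ e, (h (T.hd e) - h (T.tl e)) * (h (T.hd e) - h (T.tl e)) = 0 := by
    rw [← sub_zero (0 : ℚ)]
    conv_rhs => rw [← h1]; rhs; rw [h1, ← h2]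
    rw [← Finset.sum_sub_distrib]
    apply Finset.sum_congr rfl
    intro e _
    rw [H e]; ring
  refine ⟨p, q, fun e => ?_⟩
  have := (Finset.sum_eq_zero_iff_of_nonneg (fun e _ => mul_self_nonneg _)).1 h3 e
      (Finset.mem_univ e)
  rw [H e, mul_self_eq_zero.1 this, add_zero]

/-- Dual cycles are coboundaries. -/
theorem h1b [Fintype V] (hc : T.ConnOff ∅) (t0 : B)
    (he : Fintype.card B + 2 ≤ (univ.image T.tl).card) (z : E → ℚ)
    (hz : ∀ (p : B → ℚ) (q : W → ℚ), ∑ e, z e * (p (T.β e) - q (T.ω e)) = 0) :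
    ∃ (h : V → ℚ), ∀ e, z e = h (T.hd e) - h (T.tl e) := by
  obtain ⟨p, q, h, H⟩ := T.hodge hc t0 he z
  have h1 := hz p q
  have h2 := T.orth p q h
  have h3 : ∑ e, (p (T.β e) - q (T.ω e)) * (p (T.β e) - q (T.ω e)) = 0 := by
    rw [← sub_zero (0 : ℚ)]
    conv_rhs => rw [← h1]; rhs; rw [h1, ← h2]
    rw [← Finset.sum_sub_distrib]
    apply Finset.sum_congr rfl
    intro e _
    rw [H e]; ring
  refine ⟨h, fun e => ?_⟩
  have := (Finset.sum_eq_zero_iff_of_nonneg (fun e _ => mul_self_nonneg _)).1 h3 e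
      (Finset.mem_univ e)
  rw [H e, mul_self_eq_zero.1 this, zero_add]

end Tri

end Crest.Agent.R039
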