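import Crest.Agent.R039.Disc

/-! From a state with nonsingular matrix to a perfect matching with connected complement. -/

set_option autoImplicit false
set_option linter.unusedSectionVars false
open Finset

namespace Crest.Agent.R039

namespace Tri

variable {E B W V : Type} (T : Tri E B W V)
variable [Fintype E] [Fintype B] [Fintype W] [Fintype V]
variable [DecidableEq E] [DecidableEq B] [DecidableEq W] [DecidableEq V]

theorem card_nonM_b (M : Set E) [DecidablePred (· ∈ M)] (hM : ∀ t, ∃! e, e ∈ M ∧ T.β e = t)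
    (P : Finset B) : (univ.filter fun e => e ∉ M ∧ T.β e ∈ P).card = 2 * P.card := by
  have h1 := T.card_filter_β P
  have h2 : (univ.filter fun e => e ∈ M ∧ T.β e ∈ P).card = P.card := by
    apply Finset.card_bij (fun e _ => T.β e)
    · intro e he; exact (mem_filter.1 he).2.2
    · intro e he e' he' h
      exact (hM (T.β e')).unique ⟨(mem_filter.1 he).2.1, h⟩ ⟨(mem_filter.1 he').2.1, rfl⟩
    · intro t ht
      obtain ⟨e, ⟨he, rfl⟩, -⟩ := hM t
      exact ⟨e, by simp [he, ht], rfl⟩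
  have h3 := Finset.card_filter_add_card_filter_not (s := univ.filter fun e => T.β e ∈ P)
    (fun e => e ∈ M)
  rw [Finset.filter_filter, Finset.filter_filter] at h3
  simp only [and_comm (a := T.β _ ∈ P)] at h3
  omega

theorem card_nonM_w (M : Set E) [DecidablePred (· ∈ M)] (hM : ∀ t, ∃! e, e ∈ M ∧ T.ω e = t)
    (P : Finset W) : (univ.filter fun e => e ∉ M ∧ T.ω e ∈ P).card = 2 * P.card :=
  T.swap.card_nonM_b M hM P

theorem connOff_of_state (hc : T.ConnOff ∅) {t0 : B} {r : B → V} (hr : T.IsSt t0 r)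
    (hR : Function.Injective (T.c t0)) (M : Set E) (hM : T.IsPM M)
    (hA : ∀ e ∈ M, T.β e ≠ t0 → (r (T.β e) = T.tl e ∨ r (T.β e) = T.hd e)) : T.ConnOff M := by
  classical
  let cb : B → Prop := fun t => ∀ (P : B → Prop) (Q : W → Prop),
    (∀ e, e ∉ M → (P (T.β e) ↔ Q (T.ω e))) → P t0 → P t
  let cw : W → Prop := fun w => ∀ (P : B → Prop) (Q : W → Prop),
    (∀ e, e ∉ M → (P (T.β e) ↔ Q (T.ω e))) → P t0 → Q w
  have hcl : ∀ e, e ∉ M → (cb (T.β e) ↔ cw (T.ω e)) := by
    intro e he
    constructor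
    · intro h P Q H h0; exact (H e he).1 (h P Q H h0)
    · intro h P Q H h0; exact (H e he).2 (h P Q H h0)
  set P : Finset B := univ.filter fun t => ¬ cb t with hP
  set Q : Finset W := univ.filter fun t => ¬ cw t with hQ
  have hPm : ∀ t, t ∉ P ↔ cb t := by intro t; simp only [hP, mem_filter, mem_univ, true_and, not_not]
  have hQm : ∀ t, t ∉ Q ↔ cw t := by intro t; simp only [hQ, mem_filter, mem_univ, true_and, not_not]
  have h0 : t0 ∉ P := (hPm t0).2 (fun P Q _ h => h)
  have hcl' : ∀ e, e ∉ M → (T.β e ∈ P ↔ T.ω e ∈ Q) := by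
    intro e he
    rw [← not_iff_not, hPm, hQm]; exact hcl e he
  by_cases hne : (∃ t, t ∈ P) ∨ (∃ w, w ∈ Q)
  · exfalso
    have hcard : P.card = Q.card := by
      have h1 := T.card_nonM_b M hM.1 P
      have h2 := T.card_nonM_w M hM.2 Q
      have : (univ.filter fun e => e ∉ M ∧ T.β e ∈ P) = univ.filter fun e => e ∉ M ∧ T.ω e ∈ Q := by
        apply Finset.filter_congr
        intro e _
        exact and_congr_right (hcl' e)
      rw [this] at h1
      omega
    have hcut : ∀ e, T.β e ∈ P → T.ω e ∉ Q → e ∈ M := by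
      intro e h1 h2
      by_contra h3
      exact h2 ((hcl' e h3).1 h1)
    have := T.disc_out hc hr hR P Q h0 hne (fun h H => by
        have kb : ∀ e, T.β e ∉ P → h (T.tl e) = h (T.tl (T.bE (T.β e, 0))) := by
          intro e he
          obtain ⟨i, hi⟩ := T.exists_bE e
          conv_lhs => rw [hi]
          exact T.const_b h _ (fun i => H _ (Or.inl (by simpa using he))) i
        have kw : ∀ e, T.ω e ∉ Q → h (T.tl e) = h (T.tl (T.wE (T.ω e, 0))) := by
          intro e he
          obtain ⟨i, hi⟩ := T.exists_wE e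
          conv_lhs => rw [hi]
          exact T.const_w h _ (fun i => H _ (Or.inr (by simpa using he))) i
        set l := h (T.tl (T.bE (t0, 0)))
        have hcl2 : ∀ e, e ∉ M → ((T.β e ∉ P ∧ h (T.tl (T.bE (T.β e, 0))) = l) ↔
            (T.ω e ∉ Q ∧ h (T.tl (T.wE (T.ω e, 0))) = l)) := by
          intro e he
          constructor
          · rintro ⟨h1, h2⟩
            have h3 : T.ω e ∉ Q := fun h => h1 ((hcl' e he).2 h)
            exact ⟨h3, by rw [← kw e h3, kb e h1, h2]⟩
          · rintro ⟨h1, h2⟩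
            have h3 : T.β e ∉ P := fun h => h1 ((hcl' e he).1 h)
            exact ⟨h3, by rw [← kb e h3, kw e h1, h2]⟩
        refine ⟨l, fun e he => ?_⟩
        rcases he with he | he
        · rw [kb e he]
          exact ((hPm _).1 he (fun t => t ∉ P ∧ h (T.tl (T.bE (t, 0))) = l)
            (fun t => t ∉ Q ∧ h (T.tl (T.wE (t, 0))) = l) hcl2 ⟨h0, rfl⟩).2
        · rw [kw e he]
          exact ((hQm _).1 he (fun t => t ∉ P ∧ h (T.tl (T.bE (t, 0))) = l)
            (fun t => t ∉ Q ∧ h (T.tl (T.wE (t, 0))) = l) hcl2 ⟨h0, rfl⟩).2)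
      (fun e h1 h2 => hA e (hcut e h1 h2) (fun h => h0 (h ▸ h1)))
      (fun e e' h1 h2 h3 h4 => (hM.1 (T.β e')).unique ⟨hcut e h1 h2, h4⟩
        ⟨hcut e' (h4 ▸ h1) h3, rfl⟩)
    omega
  · push Not at hne
    intro P' Q' H t w
    by_cases h0' : P' t0
    · exact iff_of_true ((hPm t).1 (hne.1 t) P' Q' H h0') ((hQm w).1 (hne.2 w) P' Q' H h0')
    · exact iff_of_false
        ((hPm t).1 (hne.1 t) (fun t => ¬ P' t) (fun t => ¬ Q' t)
          (fun e he => not_congr (H e he)) h0')
        ((hQm w).1 (hne.2 w) (fun t => ¬ P' t) (fun t => ¬ Q' t)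
          (fun e he => not_congr (H e he)) h0')

/-- sign pattern of the two arcs at a corner -/
def sg (j i : Fin 3) : ℚ := if i = j then 1 else if i = j + 2 then -1 else 0

theorem sum_sg (j : Fin 3) : ∑ i, sg j i = 0 := by
  fin_cases j <;> simp [sg, Fin.sum_univ_three]

theorem sg_self (j : Fin 3) : sg j j = 1 := by simp [sg]
theorem sg_one (j : Fin 3) : sg j (j + 1) = 0 := by
  fin_cases j <;> simp [sg]
theorem sg_ne (j i : Fin 3) (h : sg j i ≠ 0) : i = j ∨ i = j + 2 := by
  by_contra hc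
  push Not at hc
  simp [sg, hc.1, hc.2] at h

theorem exists_match (hc : T.ConnOff ∅) (e0 : E)
    (he : Fintype.card B + 2 ≤ (univ.image T.tl).card) (ρ : B → Fin 3)
    (hr : T.IsSt (T.β e0) (fun t => T.c t (ρ t))) (hR : Function.Injective (T.c (T.β e0)))
    (hK : ∀ f : V → ℚ, (∀ i, f (T.c (T.β e0) i) = 0) →
      (∀ t, t ≠ T.β e0 → f (T.c t (ρ t + 1)) = f (T.c t (ρ t + 2))) → ∀ e, f (T.tl e) = 0) :
    ∃ M : Set E, e0 ∈ M ∧ T.IsPM M ∧ T.ConnOff M := by
  set t0 := T.β e0 with ht0
  set w0 := T.ω e0 with hw0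
  let N : B → Finset W := fun t =>
    ({T.ω (T.bE (t, ρ t)), T.ω (T.bE (t, ρ t + 2))} : Finset W).erase w0
  let y : (B → ℚ) → E → ℚ := fun μ e => μ (T.β e) * sg (ρ (T.β e)) (T.bE.symm e).2
  have hy : ∀ μ t i, y μ (T.bE (t, i)) = μ t * sg (ρ t) i := by
    intro μ t i; simp [y]
  let Φ : (B → ℚ) →ₗ[ℚ] (W → ℚ) :=
    { toFun := fun μ w => ∑ j, y μ (T.wE (w, j))
      map_add' := by
        intro a b; funext w
        simp only [y, Pi.add_apply, add_mul, Finset.sum_add_distrib]
      map_smul' := by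
        intro a b; funext w
        simp only [y, Pi.smul_apply, smul_eq_mul, RingHom.id_apply, Finset.mul_sum, mul_assoc] }
  have hall : ∀ X : Finset {t // t ≠ t0}, X.card ≤ (X.biUnion fun t => N t.1).card := by
    intro X
    rw [← Finset.card_map ⟨Subtype.val, Subtype.val_injective⟩]
    apply card_le_of_inj Φ
    intro μ hμ hΦ
    have hμ' : ∀ t, μ t ≠ 0 → ∃ h : t ≠ t0, ⟨t, h⟩ ∈ X := by
      intro t ht
      by_contra hcon
      apply ht
      apply hμ
      intro hm
      obtain ⟨t', ht', rfl⟩ := Finset.mem_map.1 hm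
      exact hcon ⟨t'.2, ht'⟩
    have hb0 : ∀ t, ∑ i, y μ (T.bE (t, i)) = 0 := by
      intro t
      simp only [hy, ← Finset.mul_sum, sum_sg, mul_zero]
    have hw1 : ∀ w, w ≠ w0 → Φ μ w = 0 := by
      intro w hw
      by_cases hwT : w ∈ X.biUnion fun t => N t.1
      · exact hΦ w hwT
      · change ∑ j, y μ (T.wE (w, j)) = 0
        apply Finset.sum_eq_zero
        intro j _
        by_contra hy0
        obtain ⟨i, hi⟩ := T.exists_bE (T.wE (w, j))
        have hwe : T.ω (T.bE (T.β (T.wE (w, j)), i)) = w := by rw [← hi]; simp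
        rw [hi, hy] at hy0
        obtain ⟨h1, h2⟩ := hμ' _ (left_ne_zero_of_mul hy0)
        apply hwT
        refine mem_biUnion.2 ⟨_, h2, mem_erase.2 ⟨hw, ?_⟩⟩
        rcases sg_ne _ _ (right_ne_zero_of_mul hy0) with h | h
        · rw [h] at hwe; simp [hwe]
        · rw [h] at hwe; simp [hwe]
    have hw2 : ∀ w, Φ μ w = 0 := by
      intro w
      by_cases hw : w = w0
      · have h1 : ∑ w, Φ μ w = 0 := by
          change ∑ w, ∑ j, y μ (T.wE (w, j)) = 0
          rw [← T.sum_w, T.sum_b]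
          exact Finset.sum_eq_zero (fun t _ => hb0 t)
        rw [Finset.sum_eq_single w0 (fun w _ hw => hw1 w hw) (by simp)] at h1
        rw [hw, h1]
      · exact hw1 w hw
    obtain ⟨h, hh⟩ := T.h1b hc t0 he (y μ) (by
      intro p q
      simp only [mul_sub, Finset.sum_sub_distrib]
      rw [T.sum_b, T.sum_w]
      simp only [β_bE, ω_wE, ← Finset.sum_mul]
      rw [Finset.sum_eq_zero (fun t _ => by rw [hb0 t, zero_mul]),
        Finset.sum_eq_zero (fun w _ => by
          have := hw2 w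
          change ∑ j, y μ (T.wE (w, j)) = 0 at this
          rw [this, zero_mul]), sub_zero])
    have hμ0 : μ t0 = 0 := by
      by_contra h
      exact (hμ' t0 h).1 rfl
    have hf := hK (fun v => h v - h (T.c t0 0)) (by
        intro i
        rw [sub_eq_zero]
        apply T.const_b h t0
        intro i
        have := hh (T.bE (t0, i))
        rw [hy, hμ0, zero_mul] at this
        exact sub_eq_zero.1 this.symm) (by
        intro t _
        have := hh (T.bE (t, ρ t + 1))
        rw [hy, sg_one, mul_zero, T.hb, add_assoc] at this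
        have h2 := sub_eq_zero.1 this.symm
        simp only [c]
        rw [← h2]; rfl)
    funext t
    have := hh (T.bE (t, ρ t))
    rw [hy, sg_self, mul_one, T.hb] at this
    have h1 := hf (T.bE (t, ρ t + 1))
    have h2 := hf (T.bE (t, ρ t))
    rw [this]
    simp only [Pi.zero_apply]
    linarith
  obtain ⟨m, hminj, hm⟩ := (Finset.all_card_le_biUnion_card_iff_exists_injective _).1 hall
  have hch : ∀ t, ∃ e, T.β e = t ∧ (t = t0 → e = e0) ∧ ∀ h : t ≠ t0, T.ω e = m ⟨t, h⟩ ∧
      (T.c t (ρ t) = T.tl e ∨ T.c t (ρ t) = T.hd e) := by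
    intro t
    by_cases h : t = t0
    · exact ⟨e0, h.symm, fun _ => rfl, fun h' => absurd h h'⟩
    · have := (mem_erase.1 (hm ⟨t, h⟩)).2
      simp only [mem_insert, mem_singleton] at this
      rcases this with h1 | h1
      · exact ⟨T.bE (t, ρ t), by simp, fun h' => absurd h' h, fun _ => ⟨h1.symm, Or.inl rfl⟩⟩
      · refine ⟨T.bE (t, ρ t + 2), by simp, fun h' => absurd h' h, fun _ => ⟨h1.symm, Or.inr ?_⟩⟩
        rw [T.hb, add_assoc]
        have : (2 : Fin 3) + 1 = 0 := rfl
        rw [this, add_zero]; rfl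
  choose a ha1 ha2 ha3 using hch
  have hinj : Function.Injective (fun t => T.ω (a t)) := by
    intro t t' h
    simp only at h
    by_cases h1 : t = t0 <;> by_cases h2 : t' = t0
    · rw [h1, h2]
    · rw [ha2 t h1, (ha3 t' h2).1] at h
      exact absurd h.symm (mem_erase.1 (hm ⟨t', h2⟩)).1
    · rw [ha2 t' h2, (ha3 t h1).1] at h
      exact absurd h (mem_erase.1 (hm ⟨t, h1⟩)).1
    · rw [(ha3 t' h2).1, (ha3 t h1).1] at h
      exact congrArg Subtype.val (hminj h)
  have hsurj : Function.Surjective (fun t => T.ω (a t)) :=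
    ((Fintype.bijective_iff_injective_and_card _).2 ⟨hinj, T.card_W.symm⟩).2
  have hPM : T.IsPM (Set.range a) := by
    constructor
    · intro t
      refine ⟨a t, ⟨⟨t, rfl⟩, ha1 t⟩, ?_⟩
      rintro e ⟨⟨t', rfl⟩, h⟩
      rw [ha1] at h; rw [h]
    · intro w
      obtain ⟨t, rfl⟩ := hsurj w
      refine ⟨a t, ⟨⟨t, rfl⟩, rfl⟩, ?_⟩
      rintro e ⟨⟨t', rfl⟩, h⟩
      rw [hinj h]
  refine ⟨Set.range a, ⟨t0, ha2 t0 rfl⟩, hPM, T.connOff_of_state hc hr hR _ hPM ?_⟩
  rintro e ⟨t, rfl⟩ h
  rw [ha1] at h ⊢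
  exact (ha3 t h).2

end Tri

end Crest.Agent.R039
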