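import Crest.Agent.R039.Hall
import Crest.Agent.R039.Match

/-! Contraction along a separating triangle and the induction. -/

set_option autoImplicit false
set_option linter.unusedSectionVars false
open Finset

namespace Crest.Agent.R039

namespace Tri

variable {E B W V : Type} (T : Tri E B W V)
variable [Fintype E] [Fintype B] [Fintype W] [Fintype V]
variable [DecidableEq E] [DecidableEq B] [DecidableEq W] [DecidableEq V]

theorem exists_tl_eq_hd (e : E) : ∃ e', T.tl e' = T.hd e := by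
  obtain ⟨i, hi⟩ := T.exists_bE e
  exact ⟨T.bE (T.β e, i + 1), by rw [← T.hb, ← hi]⟩

/-- restrict the vertex type to the vertices that occur -/
def restrict : Tri E B W {v // v ∈ univ.image T.tl} where
  bE := T.bE
  wE := T.wE
  tl e := ⟨T.tl e, mem_image_of_mem _ (mem_univ _)⟩
  hd e := ⟨T.hd e, by
    obtain ⟨e', h⟩ := T.exists_tl_eq_hd e
    exact mem_image.2 ⟨e', mem_univ _, h⟩⟩
  hb t i := Subtype.ext (T.hb t i)
  hw t i := Subtype.ext (T.hw t i)

theorem base (hG : T.Good) (e0 : E) (hN : T.NoSep (T.β e0)) :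
    ∃ M : Set E, e0 ∈ M ∧ T.IsPM M ∧ T.ConnOff M := by
  have hV : Fintype.card ↥(univ.image T.tl) = Fintype.card B + 2 := by
    rw [Fintype.card_coe]
    exact le_antisymm (T.card_V_le hG.conn (T.β e0)) hG.euler
  have hG' : T.restrict.Good :=
    { conn := hG.conn
      nopar := fun e e' h1 h2 => hG.nopar e e' (congrArg Subtype.val h1) (congrArg Subtype.val h2)
      noanti := fun e e' h1 h2 =>
        hG.noanti e e' (congrArg Subtype.val h1) (congrArg Subtype.val h2)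
      euler := by
        rw [← hV, ← Finset.card_univ]
        apply Finset.card_le_card
        rintro ⟨v, hv⟩ _
        obtain ⟨e, -, rfl⟩ := mem_image.1 hv
        exact mem_image.2 ⟨e, mem_univ _, rfl⟩ }
  obtain ⟨ρ, hρ, hK⟩ := T.restrict.exists_good_state hG'.conn hG'.euler (hG'.c_inj (T.β e0)) hV
    (T.restrict.pairs_nonempty hG' (t0 := T.β e0) hN hV)
  exact T.restrict.exists_match hG'.conn e0 hG'.euler ρ hρ (hG'.c_inj _) hK

theorem Good.swap {T : Tri E B W V} (hG : T.Good) : T.swap.Good where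
  conn := hG.conn.swap
  nopar := hG.nopar
  noanti := hG.noanti
  euler := by rw [T.card_W]; exact hG.euler

theorem remove_white (M : Set E) (hM : T.IsPM M) (hc : T.ConnOff M) (z : W)
    (P : B → Prop) (Q : W → Prop) (H : ∀ e, e ∉ M → T.ω e ≠ z → (P (T.β e) ↔ Q (T.ω e))) :
    (∀ t t', P t ↔ P t') ∧ ∀ t w, w ≠ z → (P t ↔ Q w) := by
  classical
  have h1 := T.card_nonM_b M hM.1 (univ.filter P)
  have h2 := T.card_nonM_w M hM.2 (univ.filter fun w => w ≠ z ∧ Q w)
  have h3 := T.card_nonM_w M hM.2 {z}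
  set Z := univ.filter fun e => e ∉ M ∧ T.ω e ∈ ({z} : Finset W) with hZ
  have h4 : (univ.filter fun e => e ∉ M ∧ T.β e ∈ univ.filter P) =
      (univ.filter fun e => e ∉ M ∧ T.ω e ∈ univ.filter fun w => w ≠ z ∧ Q w) ∪
        Z.filter fun e => P (T.β e) := by
    ext e
    simp only [hZ, mem_filter, mem_univ, true_and, mem_union, mem_singleton]
    constructor
    · rintro ⟨h5, h6⟩
      by_cases h7 : T.ω e = z
      · exact Or.inr ⟨⟨h5, h7⟩, h6⟩
      · exact Or.inl ⟨h5, h7, (H e h5 h7).1 h6⟩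
    · rintro (⟨h5, h7, h6⟩ | ⟨⟨h5, -⟩, h6⟩)
      · exact ⟨h5, (H e h5 h7).2 h6⟩
      · exact ⟨h5, h6⟩
  rw [h4, Finset.card_union_of_disjoint (by
    rw [Finset.disjoint_left]
    intro e he he'
    simp only [hZ, mem_filter, mem_univ, true_and, mem_singleton] at he he'
    exact he.2.1 he'.1.2), h2] at h1
  have h5 : (Z.filter fun e => P (T.β e)).Nonempty → ∀ e ∈ Z, P (T.β e) := by
    intro hne
    have h6 := Finset.card_pos.2 hne
    have h7 := Finset.card_filter_le Z fun e => P (T.β e)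
    rw [card_singleton] at h3
    have h8 : (Z.filter fun e => P (T.β e)).card = Z.card := by omega
    exact Finset.card_filter_eq_iff.1 h8
  have key := hc P (fun w => if w = z then (Z.filter fun e => P (T.β e)).Nonempty else Q w) (by
    intro e he
    by_cases h7 : T.ω e = z
    · rw [if_pos h7]
      have : e ∈ Z := by simp [hZ, he, h7]
      exact ⟨fun h => ⟨e, mem_filter.2 ⟨this, h⟩⟩, fun h => h5 h e this⟩
    · rw [if_neg h7]; exact H e he h7)
  refine ⟨fun t t' => (key t z).trans (key t' z).symm, fun t w hw => ?_⟩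
  have := key t w
  rwa [if_neg hw] at this

/-- data of a three-arc cut -/
structure Cut (P : Finset B) (Q : Finset W) (f : Fin 3 → E) : Prop where
  sub : ∀ e, T.ω e ∈ Q → T.β e ∈ P
  inj : Function.Injective f
  mem : ∀ e, (T.β e ∈ P ∧ T.ω e ∉ Q) ↔ ∃ j, f j = e
  cyc : ∀ j, T.hd (f j) = T.tl (f (j + 1))

theorem Cut.swap {T : Tri E B W V} {P : Finset B} {Q : Finset W} {f : Fin 3 → E}
    (h : T.Cut P Q f) : T.swap.Cut Qᶜ Pᶜ f where
  sub e he := by
    simp only [swap_β, swap_ω, mem_compl] at he ⊢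
    exact fun h' => he (h.sub e h')
  inj := h.inj
  mem e := by
    simp only [swap_β, swap_ω, mem_compl, not_not]
    rw [and_comm]; exact h.mem e
  cyc := h.cyc

theorem exists_cut (hG : T.Good) (P : Finset B) (Q : Finset W) (hB : (T.cutB P Q).card = 0)
    (hA : (T.cutA P Q).card = 3) : ∃ f, T.Cut P Q f := by
  rw [Finset.card_eq_zero] at hB
  have hnext : ∀ e ∈ T.cutA P Q, ∃ e' ∈ T.cutA P Q, T.tl e' = T.hd e := by
    intro e he
    by_contra hcon
    push Not at hcon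
    have := T.cut_cycle P Q (fun v => if v = T.hd e then 1 else 0)
    rw [hB, Finset.sum_empty, Finset.sum_sub_distrib,
      Finset.sum_eq_zero (s := T.cutA P Q) (f := fun e' => if T.tl e' = T.hd e then (1 : ℚ) else 0)
        (fun e' he' => if_neg (hcon e' he')), sub_zero] at this
    have h2 := (Finset.sum_eq_zero_iff_of_nonneg (fun e' _ => by split_ifs <;> norm_num)).1 this e he
    simp at h2
  have hl : ∀ e, T.tl e ≠ T.hd e := fun e h => hG.noanti _ _ h h.symm
  obtain ⟨e1, h1⟩ : (T.cutA P Q).Nonempty := by rw [← Finset.card_pos]; omega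
  obtain ⟨e2, h2, h12⟩ := hnext e1 h1
  obtain ⟨e3, h3, h23⟩ := hnext e2 h2
  obtain ⟨e4, h4, h34⟩ := hnext e3 h3
  have n12 : e1 ≠ e2 := by rintro rfl; exact hl _ h12
  have n23 : e2 ≠ e3 := by rintro rfl; exact hl _ h23
  have n13 : e1 ≠ e3 := by rintro rfl; exact hG.noanti _ _ h23 h12.symm
  have hK : T.cutA P Q = {e1, e2, e3} := by
    symm
    apply Finset.eq_of_subset_of_card_le
    · intro e he
      simp only [mem_insert, mem_singleton] at he
      rcases he with rfl | rfl | rfl <;> assumption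
    · rw [hA, Finset.card_eq_three.2 ⟨e1, e2, e3, n12, n13, n23, rfl⟩]
  have h41 : e4 = e1 := by
    rw [hK] at h4
    simp only [mem_insert, mem_singleton] at h4
    rcases h4 with rfl | rfl | rfl
    · rfl
    · exact (hG.noanti _ _ h34 h23.symm).elim
    · exact (hl _ h34).elim
  rw [h41] at h34
  refine ⟨![e1, e2, e3], ?_, ?_, ?_, ?_⟩
  · intro e he
    by_contra h
    have : e ∈ T.cutB P Q := T.mem_cutB.2 ⟨h, he⟩
    rw [hB] at this; simp at this
  · intro i j h
    fin_cases i <;> fin_cases j <;> simp_all [eq_comm]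
  · intro e
    rw [← mem_cutA, hK]
    simp [Fin.exists_fin_succ, eq_comm]
  · intro j
    fin_cases j
    · exact h12.symm
    · exact h23.symm
    · exact h34.symm

section contr

variable {P : Finset B} {Q : Finset W} {f : Fin 3 → E}

/-- the white enumeration of the contracted structure -/
def cw (h : T.Cut P Q f) : Option {w // w ∈ Q} × Fin 3 → {e // T.β e ∈ P}
  | (none, j) => ⟨f j, ((h.mem _).2 ⟨j, rfl⟩).1⟩
  | (some w, j) => ⟨T.wE (w.1, j), h.sub _ (by simpa using w.2)⟩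

theorem cw_bij (h : T.Cut P Q f) : Function.Bijective (T.cw h) := by
  constructor
  · rintro ⟨_ | w, j⟩ ⟨_ | w', j'⟩ hh <;> simp only [cw, Subtype.mk.injEq] at hh
    · rw [h.inj hh]
    · exact absurd (by rw [hh]; simpa using w'.2) ((h.mem _).2 ⟨j, rfl⟩).2
    · exact absurd (by rw [← hh]; simpa using w.2) ((h.mem _).2 ⟨j', rfl⟩).2
    · have := T.wE.injective hh
      simp only [Prod.mk.injEq] at this
      rw [Subtype.ext this.1, this.2]
  · rintro ⟨e, he⟩
    by_cases hq : T.ω e ∈ Q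
    · obtain ⟨j, hj⟩ := T.exists_wE e
      exact ⟨(some ⟨_, hq⟩, j), Subtype.ext hj.symm⟩
    · obtain ⟨j, hj⟩ := (h.mem e).1 ⟨he, hq⟩
      exact ⟨(none, j), Subtype.ext hj⟩

/-- contract the complement of `(P, Q)` to one white triangle -/
noncomputable def contr (h : T.Cut P Q f) :
    Tri {e // T.β e ∈ P} {t // t ∈ P} (Option {w // w ∈ Q}) V where
  bE :=
    { toFun := fun p => ⟨T.bE (p.1.1, p.2), by simpa using p.1.2⟩
      invFun := fun e => (⟨T.β e.1, e.2⟩, (T.bE.symm e.1).2)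
      left_inv := by rintro ⟨t, i⟩; simp
      right_inv := by rintro ⟨e, he⟩; simp [β] }
  wE := Equiv.ofBijective _ (T.cw_bij h)
  tl e := T.tl e.1
  hd e := T.hd e.1
  hb t i := T.hb t.1 i
  hw w j := by
    rcases w with _ | w
    · exact h.cyc j
    · exact T.hw w.1 j

theorem contr_β (h : T.Cut P Q f) (e : {e // T.β e ∈ P}) :
    (T.contr h).β e = ⟨T.β e.1, e.2⟩ := rfl

theorem contr_ω (h : T.Cut P Q f) (e : {e // T.β e ∈ P}) :
    (T.contr h).ω e = if hq : T.ω e.1 ∈ Q then some ⟨_, hq⟩ else none := by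
  obtain ⟨e, he⟩ := e
  split_ifs with hq
  · obtain ⟨j, hj⟩ := T.exists_wE e
    have : (⟨e, he⟩ : {e // T.β e ∈ P}) = (T.contr h).wE (some ⟨_, hq⟩, j) := Subtype.ext hj
    exact (congrArg (T.contr h).ω this).trans (ω_wE _ _ _)
  · obtain ⟨j, hj⟩ := (h.mem e).1 ⟨he, hq⟩
    have : (⟨e, he⟩ : {e // T.β e ∈ P}) = (T.contr h).wE (none, j) := Subtype.ext hj.symm
    rw [this, ω_wE]

theorem contr_conn (h : T.Cut P Q f) (hc : T.ConnOff ∅) : (T.contr h).ConnOff ∅ := by
  intro P' Q' H t w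
  have key := hc (fun t => if ht : t ∈ P then P' ⟨t, ht⟩ else Q' none)
    (fun w => Q' (if hq : w ∈ Q then some ⟨_, hq⟩ else none)) (by
      intro e _
      by_cases he : T.β e ∈ P
      · rw [dif_pos he]
        have := H ⟨e, he⟩ (Set.notMem_empty _)
        rwa [contr_β, contr_ω] at this
      · rw [dif_neg he, dif_neg (fun hq => he (h.sub e hq))])
  rcases w with _ | w
  · have := key t.1 (T.ω (f 0))
    rwa [dif_pos t.2, dif_neg ((h.mem _).2 ⟨0, rfl⟩).2] at this
  · have := key t.1 w.1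
    rwa [dif_pos t.2, dif_pos w.2] at this

theorem contr_image (h : T.Cut P Q f) :
    univ.image (T.contr h).tl = (univ.filter fun e => T.β e ∈ P).image T.tl := by
  ext v
  simp only [mem_image, mem_univ, true_and, mem_filter]
  constructor
  · rintro ⟨e, rfl⟩; exact ⟨e.1, e.2, rfl⟩
  · rintro ⟨e, he, rfl⟩; exact ⟨⟨e, he⟩, rfl⟩

theorem side_card_le (h : T.Cut P Q f) (hc : T.ConnOff ∅) :
    ((univ.filter fun e => T.β e ∈ P).image T.tl).card ≤ P.card + 2 := by
  have := (T.contr h).card_V_le (T.contr_conn h hc) ⟨_, ((h.mem _).2 ⟨0, rfl⟩).1⟩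
  rwa [contr_image, Fintype.card_coe] at this

theorem side_match (h : T.Cut P Q f) (M' : Set {e // T.β e ∈ P}) (hM : (T.contr h).IsPM M')
    (hc : (T.contr h).ConnOff M') (M : Set E) (hMM : M = Subtype.val '' M') :
    (∀ e ∈ M, T.β e ∈ P) ∧ (∀ t ∈ P, ∃! e, e ∈ M ∧ T.β e = t) ∧
    (∀ w ∈ Q, ∃! e, e ∈ M ∧ T.ω e = w) ∧ (∃! e, e ∈ M ∧ T.ω e ∉ Q) ∧
    ∀ (P' : B → Prop) (Q' : W → Prop),
      (∀ e, e ∉ M → T.ω e ∈ Q → (P' (T.β e) ↔ Q' (T.ω e))) →
      (∀ t ∈ P, ∀ t' ∈ P, P' t ↔ P' t') ∧ ∀ t ∈ P, ∀ w ∈ Q, (P' t ↔ Q' w) := by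
  subst hMM
  refine ⟨?_, ?_, ?_, ?_, ?_⟩
  · rintro e ⟨e', -, rfl⟩; exact e'.2
  · intro t ht
    obtain ⟨e, ⟨he1, he2⟩, hu⟩ := hM.1 ⟨t, ht⟩
    refine ⟨e.1, ⟨⟨e, he1, rfl⟩, congrArg Subtype.val he2⟩, ?_⟩
    rintro _ ⟨⟨e', he', rfl⟩, h2⟩
    rw [hu e' ⟨he', Subtype.ext h2⟩]
  · intro w hw
    obtain ⟨e, ⟨he1, he2⟩, hu⟩ := hM.2 (some ⟨w, hw⟩)
    rw [contr_ω] at he2
    refine ⟨e.1, ⟨⟨e, he1, rfl⟩, ?_⟩, ?_⟩
    · split_ifs at he2
      simpa using he2
    · rintro _ ⟨⟨e', he', rfl⟩, h2⟩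
      rw [hu e' ⟨he', by rw [contr_ω, dif_pos (h2 ▸ hw)]; simp [h2]⟩]
  · obtain ⟨e, ⟨he1, he2⟩, hu⟩ := hM.2 none
    rw [contr_ω] at he2
    refine ⟨e.1, ⟨⟨e, he1, rfl⟩, ?_⟩, ?_⟩
    · intro hq
      rw [dif_pos hq] at he2
      simp at he2
    · rintro _ ⟨⟨e', he', rfl⟩, h2⟩
      rw [hu e' ⟨he', by rw [contr_ω, dif_neg h2]⟩]
  · intro P' Q' H
    have key := (T.contr h).remove_white M' hM hc none (fun t => P' t.1)
      (fun w => w.elim False fun w => Q' w.1) (by
        intro e he hne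
        rw [contr_ω] at hne
        rw [contr_β, contr_ω]
        by_cases hq : T.ω e.1 ∈ Q
        · rw [dif_pos hq]
          refine H e.1 ?_ hq
          rintro ⟨e', he', h2⟩
          exact he (Subtype.ext h2 ▸ he')
        · rw [dif_neg hq] at hne
          exact absurd rfl hne)
    exact ⟨fun t ht t' ht' => key.1 ⟨t, ht⟩ ⟨t', ht'⟩,
      fun t ht w hw => key.2 ⟨t, ht⟩ (some ⟨w, hw⟩) (by simp)⟩

theorem contr_good (h : T.Cut P Q f) (hG : T.Good) : (T.contr h).Good where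
  conn := T.contr_conn h hG.conn
  nopar e e' h1 h2 := Subtype.ext (hG.nopar _ _ h1 h2)
  noanti e e' h1 h2 := hG.noanti _ _ h1 h2
  euler := by
    rw [contr_image, Fintype.card_coe]
    have h2 := T.swap.side_card_le h.swap hG.conn.swap
    simp only [swap_β, swap_tl] at h2
    set V1 := (univ.filter fun e => T.β e ∈ P).image T.tl
    set V2 := (univ.filter fun e => T.ω e ∈ Qᶜ).image T.tl
    have h3 := Finset.card_union_add_card_inter V1 V2
    have h4 : (univ.image T.tl).card ≤ (V1 ∪ V2).card := by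
      apply Finset.card_le_card
      intro v hv
      obtain ⟨e, -, rfl⟩ := mem_image.1 hv
      by_cases he : T.ω e ∈ Q
      · exact mem_union_left _ (mem_image_of_mem _ (by simpa using h.sub e he))
      · exact mem_union_right _ (mem_image_of_mem _ (by simpa using he))
    have h5 : 3 ≤ (V1 ∩ V2).card := by
      have := Finset.card_le_card_of_injOn (s := (univ : Finset (Fin 3))) (t := V1 ∩ V2)
        (fun j => T.tl (f j)) (fun j _ => by
          have := (h.mem _).2 ⟨j, rfl⟩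
          exact mem_coe.2 (mem_inter.2 ⟨mem_image_of_mem _ (by simpa using this.1),
            mem_image_of_mem _ (by simpa using this.2)⟩)) (by
          intro i _ j _ hij
          by_contra hne
          have key : ∀ i, T.tl (f i) ≠ T.tl (f (i + 1)) := by
            intro i hi
            rw [← h.cyc] at hi
            exact hG.noanti _ _ hi hi.symm
          have : j = i + 1 ∨ i = j + 1 := by clear * - hne; revert i j; decide
          rcases this with rfl | rfl
          · exact key i hij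
          · exact key j hij.symm)
      simpa using this
    have h6 := T.cut_card P Q
    have h7 : (T.cutB P Q).card = 0 := by
      rw [Finset.card_eq_zero, Finset.eq_empty_iff_forall_notMem]
      intro e he
      exact (T.mem_cutB.1 he).1 (h.sub e (T.mem_cutB.1 he).2)
    have h8 : (T.cutA P Q).card = 3 := by
      have : T.cutA P Q = univ.image f := by
        ext e; rw [mem_cutA, h.mem]; simp
      rw [this, Finset.card_image_of_injective _ h.inj]; simp
    have h9 := hG.euler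
    have h10 := Finset.card_add_card_compl Q
    have h11 := T.card_W
    omega

end contr

end Tri

theorem main_aux {V : Type} [Fintype V] [DecidableEq V] (n : ℕ) :
    ∀ {E B W : Type} [Fintype E] [Fintype B] [Fintype W] [DecidableEq E] [DecidableEq B]
      [DecidableEq W] (T : Tri E B W V), Fintype.card E = n → T.Good → ∀ e0 : E,
      ∃ M : Set E, e0 ∈ M ∧ T.IsPM M ∧ T.ConnOff M := by
  induction n using Nat.strong_induction_on with
  | _ n ih =>
  intro E B W _ _ _ _ _ _ T hn hG e0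
  by_cases hN : T.NoSep (T.β e0)
  · exact T.base hG e0 hN
  simp only [Tri.NoSep, not_forall] at hN
  obtain ⟨P, Q, h0, hB, hA, hQ⟩ := hN
  obtain ⟨f, hf⟩ := T.exists_cut hG P Q hB hA
  obtain ⟨w1, hw1⟩ := Finset.nonempty_iff_ne_empty.2 hQ
  have he0 : T.swap.β e0 ∈ Qᶜ := mem_compl.2 (fun h => h0 (hf.sub e0 h))
  obtain ⟨M2', hm2, hPM2, hc2⟩ := ih _ (by
      rw [← hn]
      exact Fintype.card_subtype_lt (p := fun e => T.swap.β e ∈ Qᶜ) (x := T.wE (w1, 0))
        (by simpa using hw1))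
    (T.swap.contr hf.swap) rfl (T.swap.contr_good hf.swap hG.swap) ⟨e0, he0⟩
  obtain ⟨a1, a2, a3, ⟨g, ⟨hg1, hg2⟩, a4⟩, a5⟩ := T.swap.side_match hf.swap M2' hPM2 hc2 _ rfl
  have he0M : e0 ∈ Subtype.val '' M2' := ⟨_, hm2, rfl⟩
  generalize Subtype.val '' M2' = M2 at *
  simp only [Tri.swap_β, Tri.swap_ω, mem_compl, not_not] at a1 a2 a3 hg2 a4 a5
  obtain ⟨M1', hm1, hPM1, hc1⟩ := ih _ (by
      rw [← hn]
      exact Fintype.card_subtype_lt (p := fun e => T.β e ∈ P) (x := e0) h0)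
    (T.contr hf) rfl (T.contr_good hf hG) ⟨g, hg2⟩
  obtain ⟨b1, b2, b3, b4, b5⟩ := T.side_match hf M1' hPM1 hc1 _ rfl
  have hgM : g ∈ Subtype.val '' M1' := ⟨_, hm1, rfl⟩
  generalize Subtype.val '' M1' = M1 at *
  have b4' : ∀ e, e ∈ M1 → T.ω e ∉ Q → e = g := fun e h1 h2 =>
    b4.unique ⟨h1, h2⟩ ⟨hgM, a1 g hg1⟩
  refine ⟨M1 ∪ M2, Or.inr he0M, ⟨fun t => ?_, fun w => ?_⟩, ?_⟩
  · by_cases ht : t ∈ P
    · obtain ⟨e, ⟨h1, h2⟩, hu⟩ := b2 t ht
      refine ⟨e, ⟨Or.inl h1, h2⟩, ?_⟩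
      rintro e' ⟨h3 | h3, h4⟩
      · exact hu e' ⟨h3, h4⟩
      · exact hu e' ⟨by rw [a4 e' ⟨h3, h4 ▸ ht⟩]; exact hgM, h4⟩
    · obtain ⟨e, ⟨h1, h2⟩, hu⟩ := a3 t ht
      refine ⟨e, ⟨Or.inr h1, h2⟩, ?_⟩
      rintro e' ⟨h3 | h3, h4⟩
      · exact absurd (h4 ▸ b1 e' h3) ht
      · exact hu e' ⟨h3, h4⟩
  · by_cases hw : w ∈ Q
    · obtain ⟨e, ⟨h1, h2⟩, hu⟩ := b3 w hw
      refine ⟨e, ⟨Or.inl h1, h2⟩, ?_⟩
      rintro e' ⟨h3 | h3, h4⟩
      · exact hu e' ⟨h3, h4⟩
      · exact absurd (h4 ▸ hw) (a1 e' h3)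
    · obtain ⟨e, ⟨h1, h2⟩, hu⟩ := a2 w hw
      refine ⟨e, ⟨Or.inr h1, h2⟩, ?_⟩
      rintro e' ⟨h3 | h3, h4⟩
      · exact hu e' ⟨by rw [b4' e' h3 (h4 ▸ hw)]; exact hg1, h4⟩
      · exact hu e' ⟨h3, h4⟩
  · intro P' Q' H
    obtain ⟨c1, c2⟩ := b5 P' Q' (fun e h1 h2 => H e (by
      rintro (h | h)
      · exact h1 h
      · exact a1 e h h2))
    obtain ⟨d1, d2⟩ := a5 Q' P' (fun e h1 h2 => (H e (by
      rintro (h | h)
      · exact h2 (b1 e h)
      · exact h1 h)).symm)
    obtain ⟨j, hj⟩ : ∃ j, f j ≠ g := by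
      by_cases h : f 0 = g
      · exact ⟨1, fun h' => absurd (hf.inj (h.trans h'.symm)) (by decide)⟩
      · exact ⟨0, h⟩
    obtain ⟨hj1, hj2⟩ := (hf.mem _).2 ⟨j, rfl⟩
    have link := H (f j) (by
      rintro (h | h)
      · exact hj (b4' _ h hj2)
      · exact hj (a4 _ ⟨h, hj1⟩))
    intro t w
    have k1 : P' t ↔ P' (T.β (f j)) := by
      by_cases ht : t ∈ P
      · exact c1 _ ht _ hj1
      · exact ((d2 _ hj2 t ht).symm).trans link.symm
    have k2 : Q' w ↔ P' (T.β (f j)) := by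
      by_cases hw : w ∈ Q
      · exact (c2 _ hj1 w hw).symm
      · exact (d1 _ hw _ hj2).trans link.symm
    exact k1.trans k2.symm

end Crest.Agent.R039
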