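import Mathlib

/-! Lowest-order-coefficient positivity for polynomials, and small facts on `Fin 3`. -/

set_option autoImplicit false
open Finset Polynomial

namespace Crest.Agent.R039

/-- `p = X^c * g` with `g(0) > 0`. -/
def Pos (c : ℕ) (p : ℚ[X]) : Prop := ∃ g : ℚ[X], p = X ^ c * g ∧ 0 < g.eval 0

theorem Pos.mul {c d : ℕ} {p q : ℚ[X]} (hp : Pos c p) (hq : Pos d q) : Pos (c + d) (p * q) := by
  obtain ⟨g, rfl, hg⟩ := hp
  obtain ⟨h, rfl, hh⟩ := hq
  exact ⟨g * h, by ring, by rw [eval_mul]; positivity⟩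

theorem Pos.prod {ι : Type} (s : Finset ι) (p : ι → ℚ[X]) (h : ∀ i ∈ s, Pos 1 (p i)) :
    Pos s.card (∏ i ∈ s, p i) := by
  classical
  induction s using Finset.induction_on with
  | empty => exact ⟨1, by simp, by simp⟩
  | insert a s ha ih =>
    rw [Finset.prod_insert ha, Finset.card_insert_of_notMem ha, add_comm]
    exact (h a (mem_insert_self _ _)).mul (ih (fun i hi => h i (mem_insert_of_mem hi)))

theorem ne_zero_of_classes {ι : Type} (s : Finset ι) (hs : s.Nonempty) (G : ι → ℚ[X]) (N : ℕ)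
    (h : ∀ o ∈ s, ∃ c m, N = 2 * m + 3 * c ∧ Pos c ((-1) ^ m * G o)) : ∑ o ∈ s, G o ≠ 0 := by
  classical
  choose! c m hN hP using h
  obtain ⟨o0, ho0, hmin⟩ := s.exists_min_image c hs
  intro h0
  have h1 : ∑ o ∈ s, ((-1) ^ m o0 * G o).coeff (c o0) = 0 := by
    rw [← Polynomial.finsetSum_coeff, ← Finset.mul_sum, h0]; simp
  have key : ∀ o ∈ s, c o = c o0 → 0 < ((-1) ^ m o0 * G o).coeff (c o0) := by
    intro o ho hc
    have hm : m o = m o0 := by
      have := hN o ho
      have := hN o0 ho0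
      omega
    obtain ⟨g, hg, hg0⟩ := hP o ho
    rw [← hm, hg, ← hc]
    have := Polynomial.coeff_X_pow_mul g (c o) 0
    rw [zero_add] at this
    rw [this, Polynomial.coeff_zero_eq_eval_zero]; exact hg0
  have h2 : 0 < ∑ o ∈ s, ((-1) ^ m o0 * G o).coeff (c o0) := by
    apply Finset.sum_pos' _ ⟨o0, ho0, key o0 ho0 rfl⟩
    intro o ho
    rcases (hmin o ho).eq_or_lt with h | h
    · exact (key o ho h.symm).le
    · obtain ⟨g, hg, -⟩ := hP o ho
      have h3 : (-1) ^ m o0 * G o = X ^ c o * ((-1) ^ m o0 * (-1) ^ m o * g) := by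
        have h4 : ((-1 : ℚ[X]) ^ m o) * (-1) ^ m o = 1 := by
          rw [← mul_pow]; simp
        calc (-1) ^ m o0 * G o = (-1) ^ m o0 * (-1) ^ m o * ((-1) ^ m o * G o) := by
              rw [mul_assoc, ← mul_assoc ((-1) ^ m o), h4, one_mul]
          _ = _ := by rw [hg]; ring
      rw [h3, Polynomial.coeff_X_pow_mul', if_neg (by omega)]
  exact h2.ne' h1

theorem prod_lin {ι : Type} (s : Finset ι) (α : ι → ℚ) :
    ∃ g : ℚ[X], ∏ i ∈ s, (1 + C (α i) * X) = 1 + X * g ∧ g.eval 0 = ∑ i ∈ s, α i := by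
  classical
  induction s using Finset.induction_on with
  | empty => exact ⟨0, by simp, by simp⟩
  | insert a s ha ih =>
    obtain ⟨g, hg, hg0⟩ := ih
    refine ⟨C (α a) + g + C (α a) * X * g, ?_, ?_⟩
    · rw [Finset.prod_insert ha, hg]; ring
    · rw [Finset.sum_insert ha, ← hg0]; simp

theorem sign_count {ι : Type} (s : Finset ι) (ε : ι → ℚ) (hε : ∀ i ∈ s, ε i = 1 ∨ ε i = -1) :
    ∃ a b : ℕ, s.card = a + b ∧ ∑ i ∈ s, ε i = a - b ∧ ∏ i ∈ s, ε i = (-1) ^ b ∧
      ∏ i ∈ s, (-ε i) = (-1) ^ a := by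
  classical
  induction s using Finset.induction_on with
  | empty => exact ⟨0, 0, by simp, by simp, by simp, by simp⟩
  | insert x s hx ih =>
    obtain ⟨a, b, h1, h2, h3, h4⟩ := ih (fun i hi => hε i (mem_insert_of_mem hi))
    rw [Finset.card_insert_of_notMem hx, Finset.sum_insert hx, Finset.prod_insert hx,
      Finset.prod_insert hx, h1, h2, h3, h4]
    rcases hε x (mem_insert_self _ _) with h | h <;> rw [h]
    · exact ⟨a + 1, b, by ring, by push_cast; ring, by ring, by ring⟩
    · exact ⟨a, b + 1, by ring, by push_cast; ring, by ring, by ring⟩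

theorem cycle_poly {ι : Type} (s : Finset ι) (ε α β : ι → ℚ) (hε : ∀ i ∈ s, ε i = 1 ∨ ε i = -1)
    (h : (∑ i ∈ s, ε i = 3 ∧ 0 < ∑ i ∈ s, (α i - β i)) ∨
      (∑ i ∈ s, ε i = -3 ∧ ∑ i ∈ s, (α i - β i) < 0)) :
    ∃ m, s.card = 2 * m + 3 ∧ Pos 1 ((-1) ^ m *
      (∏ i ∈ s, (C (ε i) * (1 + C (α i) * X)) + ∏ i ∈ s, (C (-ε i) * (1 + C (β i) * X)))) := by
  obtain ⟨a, b, h1, h2, h3, h4⟩ := sign_count s ε hε
  obtain ⟨g, hg, hg0⟩ := prod_lin s α
  obtain ⟨g', hg', hg0'⟩ := prod_lin s β
  rw [Finset.prod_mul_distrib, Finset.prod_mul_distrib, ← map_prod, ← map_prod, h3, h4, hg, hg']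
  rw [Finset.sum_sub_distrib, h2] at h
  have hsq : ∀ n : ℕ, ((-1 : ℚ[X]) ^ n) * (-1) ^ n = 1 := by
    intro n; rw [← mul_pow]; simp
  rcases h with ⟨h5, h6⟩ | ⟨h5, h6⟩
  · have hab : a = b + 3 := by
      have : (a : ℚ) = ((b + 3 : ℕ) : ℚ) := by push_cast; linarith
      exact_mod_cast this
    refine ⟨b, by omega, g - g', ?_, ?_⟩
    · rw [hab]
      simp only [map_pow, map_neg, map_one]
      linear_combination (X * (g - g')) * hsq b
    · rw [eval_sub, hg0, hg0']; exact h6
  · have hab : b = a + 3 := by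
      have : (b : ℚ) = ((a + 3 : ℕ) : ℚ) := by push_cast; linarith
      exact_mod_cast this
    refine ⟨a, by omega, g' - g, ?_, ?_⟩
    · rw [hab]
      simp only [map_pow, map_neg, map_one]
      linear_combination (X * (g' - g)) * hsq a
    · rw [eval_sub, hg0, hg0']; linarith

/-- sign of the step from corner `i` to corner `j` -/
def eps (i j : Fin 3) : ℚ := if j = i + 1 then 1 else if j = i + 2 then -1 else 0

/-- index of the arc joining corners `i` and `j` -/
def arc (i j : Fin 3) : Fin 3 := if j = i + 1 then i else j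

theorem eps_self (i : Fin 3) : eps i i = 0 := by fin_cases i <;> simp [eps]

theorem eps_swap (i j : Fin 3) : eps j i = - eps i j := by
  fin_cases i <;> fin_cases j <;> simp [eps]

theorem eps_cases (i j : Fin 3) (h : i ≠ j) :
    (eps i j = 1 ∧ arc i j = i ∧ arc i j + 1 = j) ∨
      (eps i j = -1 ∧ arc i j + 1 = i ∧ arc i j = j) := by
  fin_cases i <;> fin_cases j <;> simp [eps, arc] at h ⊢

theorem sum_eps (i : Fin 3) (f : Fin 3 → ℚ) : ∑ j, eps i j * f j = f (i + 1) - f (i + 2) := by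
  fin_cases i <;> simp [eps, Fin.sum_univ_three] <;> ring

theorem theta_eq (η : Fin 3 → ℚ) (h : ∑ i, η i = 0) (i j : Fin 3) (hij : i ≠ j) :
    eps i j * η (arc i j) = (η i - η (i + 2)) / 3 - (η j - η (j + 2)) / 3 := by
  rw [Fin.sum_univ_three] at h
  fin_cases i <;> fin_cases j <;> simp [eps, arc] at hij ⊢ <;> linarith

theorem pair_cases (i j i' j' : Fin 3) (h : i ≠ j) (h' : i' ≠ j') (hs : i' + j' = i + j) :
    (i' = i ∧ j' = j) ∨ (i' = j ∧ j' = i) := by
  revert i j i' j'; decide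

theorem perm_invariant {α β : Type} [Finite α] (τ : Equiv.Perm α) (S : α → Prop)
    (hS : ∀ x, S x → S (τ x)) (f : α → β)
    (hf : ∀ x, S x → f (τ x) = f x) {x y : α} (hx : S x) (h : τ.SameCycle x y) : f y = f x := by
  obtain ⟨n, rfl⟩ := h.exists_nat_pow_eq
  have : ∀ n : ℕ, S ((τ ^ n) x) ∧ f ((τ ^ n) x) = f x := by
    intro n
    induction n with
    | zero => exact ⟨hx, rfl⟩
    | succ n ih =>
      rw [pow_succ', Equiv.Perm.mul_apply]
      exact ⟨hS _ ih.1, (hf _ ih.1).trans ih.2⟩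
  exact (this n).2

theorem sign_eq_one_of_odd {α : Type} [Fintype α] [DecidableEq α] (τ : Equiv.Perm α)
    [DecidableRel τ.SameCycle]
    (h : ∀ x, Odd (univ.filter fun y => τ.SameCycle x y).card) : Equiv.Perm.sign τ = 1 := by
  have h1 : ∀ x, (τ ^ (univ.filter fun y => τ.SameCycle x y).card) x = x := by
    intro x
    apply Equiv.Perm.IsCycleOn.pow_card_apply
    · constructor
      · apply Set.BijOn.mk
        · intro y hy
          simp only [coe_filter, mem_univ, true_and, Set.mem_ofPred_eq] at hy ⊢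
          exact hy.apply_right
        · exact τ.injective.injOn
        · intro y hy
          simp only [coe_filter, mem_univ, true_and, Set.mem_ofPred_eq] at hy
          refine ⟨τ.symm y, ?_, by simp⟩
          simp only [coe_filter, mem_univ, true_and, Set.mem_ofPred_eq]
          exact hy.symm_apply_right
      · intro y hy z hz
        simp only [coe_filter, mem_univ, true_and, Set.mem_ofPred_eq] at hy hz
        exact hy.symm.trans hz
    · simp only [mem_filter, mem_univ, true_and]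
      exact Equiv.Perm.SameCycle.refl _ _
  set n := ∏ x, (univ.filter fun y => τ.SameCycle x y).card with hn
  have hodd : Odd n := Finset.prod_induction _ Odd (fun a b ha hb => ha.mul hb) odd_one
    (fun x _ => h x)
  have h2 : τ ^ n = 1 := by
    ext x
    obtain ⟨k, hk⟩ : (univ.filter fun y => τ.SameCycle x y).card ∣ n :=
      Finset.dvd_prod_of_mem _ (mem_univ x)
    rw [hk, pow_mul]
    exact Equiv.Perm.pow_apply_eq_self_of_apply_eq_self (h1 x) k
  have h3 : Equiv.Perm.sign τ ^ n = 1 := by rw [← map_pow, h2, map_one]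
  rcases Int.units_eq_one_or (Equiv.Perm.sign τ) with h4 | h4
  · exact h4
  · rw [h4, hodd.neg_one_pow] at h3
    exact absurd h3 (by decide)

end Crest.Agent.R039
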