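import Crest.Agent.R039.Disc
import Crest.Agent.R039.Poly

/-! The weighted sum of determinants over states does not vanish if a paired state exists. -/

set_option autoImplicit false
set_option linter.unusedSectionVars false
open Finset Polynomial

namespace Crest.Agent.R039

/-- extension of a function on the non-root blacks -/
def ext {B α : Type} [DecidableEq B] {t0 : B} (f : {t // t ≠ t0} → α) (d : α) (t : B) : α :=
  if h : t ≠ t0 then f ⟨t, h⟩ else d

@[simp] theorem ext_val {B α : Type} [DecidableEq B] {t0 : B} (f : {t // t ≠ t0} → α) (d : α)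
    (t : {t // t ≠ t0}) : ext f d t.1 = f t := by
  simp [ext, t.2]

theorem ext_of {B α : Type} [DecidableEq B] {t0 : B} (f : {t // t ≠ t0} → α) (d : α)
    (t : B) (h : t ≠ t0) : ext f d t = f ⟨t, h⟩ := ext_val f d ⟨t, h⟩

namespace Tri

variable {E B W V : Type} (T : Tri E B W V)
variable [Fintype E] [Fintype B] [Fintype W] [Fintype V]
variable [DecidableEq E] [DecidableEq B] [DecidableEq W] [DecidableEq V]

theorem exists_eta (hc : T.ConnOff ∅) (t0 : B) : ∃ η : E → ℚ,
    (∀ t, t ≠ t0 → ∑ i, η (T.bE (t, i)) = 0) ∧ ∀ w, ∑ i, η (T.wE (w, i)) = 1 := by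
  have hb : ∀ e t, ∑ i, (if T.bE (t, i) = e then (1 : ℚ) else 0) = if t = T.β e then 1 else 0 := by
    intro e t
    obtain ⟨j, hj⟩ := T.exists_bE e
    generalize T.β e = t' at hj
    subst hj
    by_cases h : t = t' <;> simp [h]
  have hw : ∀ e t, ∑ i, (if T.wE (t, i) = e then (1 : ℚ) else 0) = if t = T.ω e then 1 else 0 := by
    intro e t
    obtain ⟨j, hj⟩ := T.exists_wE e
    generalize T.ω e = t' at hj
    subst hj
    by_cases h : t = t' <;> simp [h]
  have key := hc (fun t => ∃ η : E → ℚ,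
      (∀ t', t' ≠ t0 → ∑ i, η (T.bE (t', i)) = if t' = t then 1 else 0) ∧
        ∀ w, ∑ i, η (T.wE (w, i)) = 0)
    (fun w => ∃ η : E → ℚ, (∀ t', t' ≠ t0 → ∑ i, η (T.bE (t', i)) = 0) ∧
        ∀ w', ∑ i, η (T.wE (w', i)) = if w' = w then 1 else 0) (by
      intro e _
      constructor
      · rintro ⟨η, h1, h2⟩
        refine ⟨fun e' => (if e' = e then 1 else 0) - η e', fun t ht => ?_, fun w => ?_⟩
        · rw [Finset.sum_sub_distrib, hb, h1 t ht, sub_self]
        · rw [Finset.sum_sub_distrib, hw, h2 w, sub_zero]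
      · rintro ⟨η, h1, h2⟩
        refine ⟨fun e' => (if e' = e then 1 else 0) - η e', fun t ht => ?_, fun w => ?_⟩
        · rw [Finset.sum_sub_distrib, hb, h1 t ht, sub_zero]
        · rw [Finset.sum_sub_distrib, hw, h2 w, sub_self]) t0
  have h2 := fun w => (key w).1 ⟨0, fun t ht => by simp [ht], fun w => by simp⟩
  choose η h1 h2 using h2
  refine ⟨fun e => ∑ w, η w e, fun t ht => ?_, fun w => ?_⟩
  · rw [Finset.sum_comm]
    exact Finset.sum_eq_zero (fun w _ => h1 w t ht)
  · rw [Finset.sum_comm]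
    simp only [h2]
    simp

/-- states on the subtype of non-root blacks -/
def St (t0 : B) (ρ : {t // t ≠ t0} → Fin 3) : Prop :=
  Function.Injective (fun t : {t // t ≠ t0} => T.c t.1 (ρ t)) ∧ ∀ t i, T.c t.1 (ρ t) ≠ T.c t0 i

theorem St.isSt {T : Tri E B W V} {t0 : B} {ρ : {t // t ≠ t0} → Fin 3} (h : T.St t0 ρ) :
    T.IsSt t0 (fun t => T.c t (ext ρ 0 t)) where
  mem t _ := ⟨_, rfl⟩
  inj t t' ht ht' hh := by
    rw [ext_of _ _ _ ht, ext_of _ _ _ ht'] at hh
    exact congrArg Subtype.val (h.1 (a₁ := ⟨t, ht⟩) (a₂ := ⟨t', ht'⟩) hh)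
  root t ht i := by
    rw [ext_of _ _ _ ht]
    exact h.2 ⟨t, ht⟩ i

theorem St.surj {T : Tri E B W V} {t0 : B} {ρ : {t // t ≠ t0} → Fin 3} (h : T.St t0 ρ)
    (hV : Fintype.card V = Fintype.card B + 2) (hR : Function.Injective (T.c t0))
    (v : V) (hv : ∀ i, v ≠ T.c t0 i) : ∃ t : {t // t ≠ t0}, T.c t.1 (ρ t) = v := by
  have h1 : univ.image (fun t : {t // t ≠ t0} => T.c t.1 (ρ t)) = (univ.image (T.c t0))ᶜ := by
    apply Finset.eq_of_subset_of_card_le
    · intro x hx
      obtain ⟨t, -, rfl⟩ := mem_image.1 hx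
      rw [mem_compl]
      intro hx'
      obtain ⟨i, -, hi⟩ := mem_image.1 hx'
      exact h.2 t i hi.symm
    · rw [Finset.card_compl, Finset.card_image_of_injective _ hR,
        Finset.card_image_of_injective _ h.1]
      simp [hV]
  have : v ∈ univ.image (fun t : {t // t ≠ t0} => T.c t.1 (ρ t)) := by
    rw [h1, mem_compl]
    intro hx'
    obtain ⟨i, -, hi⟩ := mem_image.1 hx'
    exact hv i hi.symm
  obtain ⟨t, -, ht⟩ := mem_image.1 this
  exact ⟨t, ht⟩

theorem St.exists_perm {T : Tri E B W V} {t0 : B} {ρ ς : {t // t ≠ t0} → Fin 3} (h : T.St t0 ρ)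
    (h' : T.St t0 ς) (hV : Fintype.card V = Fintype.card B + 2)
    (hR : Function.Injective (T.c t0)) :
    ∃ τ : Equiv.Perm {t // t ≠ t0}, ∀ t, T.c (τ t).1 (ρ (τ t)) = T.c t.1 (ς t) := by
  choose f hf using fun t : {t // t ≠ t0} => h.surj hV hR _ (h'.2 t)
  have hinj : Function.Injective f := by
    intro t t' htt
    apply h'.1
    simp only
    rw [← hf t, ← hf t', htt]
  exact ⟨Equiv.ofBijective f (Finite.injective_iff_bijective.1 hinj), hf⟩

section cyc

variable (hc : T.ConnOff ∅) {t0 : B} (he : Fintype.card B + 2 ≤ (univ.image T.tl).card)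
  (hR : Function.Injective (T.c t0))
  (η : E → ℚ) (hηb : ∀ t, t ≠ t0 → ∑ i, η (T.bE (t, i)) = 0) (hηw : ∀ w, ∑ i, η (T.wE (w, i)) = 1)

/-- the potential on corners -/
def θ (η : E → ℚ) (t : B) (i : Fin 3) : ℚ := (η (T.bE (t, i)) - η (T.bE (t, i + 2))) / 3

/-- the weight of the ordered choice `(i, j)` at `t` -/
noncomputable def wt (η : E → ℚ) (t : B) (i j : Fin 3) : ℚ[X] :=
  C (eps i j) * (1 + C (T.θ η t i) * X)

include hc he hR hηb hηw in
theorem cycle_pos {ρ ς : {t // t ≠ t0} → Fin 3} (h : T.St t0 ρ) (hne : ∀ t, ρ t ≠ ς t)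
    (τ : Equiv.Perm {t // t ≠ t0}) [DecidableRel τ.SameCycle]
    (hτ : ∀ t, T.c (τ t).1 (ρ (τ t)) = T.c t.1 (ς t)) (t1 : {t // t ≠ t0}) :
    ∃ m, (univ.filter fun t => τ.SameCycle t1 t).card = 2 * m + 3 ∧
      Pos 1 ((-1) ^ m * (∏ t ∈ univ.filter fun t => τ.SameCycle t1 t, T.wt η t.1 (ρ t) (ς t) +
        ∏ t ∈ univ.filter fun t => τ.SameCycle t1 t, T.wt η t.1 (ς t) (ρ t))) := by
  set S := univ.filter fun t => τ.SameCycle t1 t with hS
  have hSm : ∀ t, t ∈ S ↔ τ.SameCycle t1 t := by intro t; simp [hS]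
  have hcp := cycle_poly S (fun t => eps (ρ t) (ς t)) (fun t => T.θ η t.1 (ρ t))
    (fun t => T.θ η t.1 (ς t)) (fun t _ => by
      rcases eps_cases _ _ (hne t) with h | h
      · exact Or.inl h.1
      · exact Or.inr h.1) (by
    let j : {t // t ≠ t0} ↪ B := ⟨Subtype.val, Subtype.val_injective⟩
    have hm : ∀ t ∈ S.map j, ∃ t' ∈ S, t'.1 = t := fun t ht => Finset.mem_map.1 ht
    have hm' : ∀ t ∈ S, t.1 ∈ S.map j := fun t ht => Finset.mem_map_of_mem j ht
    have := T.cycle_sign hc he h.isSt hR η hηb hηw (S.map j)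
      (fun h0 => by obtain ⟨t, -, ht⟩ := hm _ h0; exact t.2 ht)
      ⟨_, hm' t1 ((hSm _).2 (Equiv.Perm.SameCycle.refl _ _))⟩
      (ext (fun t => (τ t).1) t0)
      (fun t ht => by
        obtain ⟨t, ht', rfl⟩ := hm _ ht
        rw [ext_val]
        exact hm' _ ((hSm _).2 ((hSm _).1 ht').apply_right))
      (fun t ht t' ht' hh => by
        obtain ⟨t, -, rfl⟩ := hm _ ht
        obtain ⟨t', -, rfl⟩ := hm _ ht'
        rw [ext_val, ext_val] at hh
        rw [τ.injective (Subtype.ext hh)])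
      (fun μ hμ t ht t' ht' => by
        obtain ⟨t, ht2, rfl⟩ := hm _ ht
        obtain ⟨t', ht2', rfl⟩ := hm _ ht'
        refine perm_invariant τ (fun x => x ∈ S)
          (fun x hx => (hSm _).2 ((hSm _).1 hx).apply_right) (fun x => μ x.1)
          (fun x hx => ?_) ht2' (((hSm _).1 ht2').symm.trans ((hSm _).1 ht2))
        have := hμ x.1 (hm' x hx)
        rwa [ext_val] at this)
      (fun t => T.bE (t, arc (ext ρ 0 t) (ext ς 0 t))) (fun t _ => by simp)
      (fun t => eps (ext ρ 0 t) (ext ς 0 t))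
      (fun t ht => by
        obtain ⟨t, -, rfl⟩ := hm _ ht
        simp only [ext_val, hτ, T.hb]
        rcases eps_cases _ _ (hne t) with ⟨h1, h2, h3⟩ | ⟨h1, h2, h3⟩
        · left
          refine ⟨h1, ?_, ?_⟩
          · rw [h2]; rfl
          · rw [h3]; rfl
        · right
          refine ⟨h1, ?_, ?_⟩
          · rw [h2]; rfl
          · rw [h3]; rfl)
    rw [Finset.sum_map, Finset.sum_map] at this
    simp only [j, Function.Embedding.coeFn_mk, ext_val] at this
    have h2 : ∀ t ∈ S, eps (ρ t) (ς t) * η (T.bE (t.1, arc (ρ t) (ς t))) =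
        T.θ η t.1 (ρ t) - T.θ η t.1 (ς t) := fun t _ =>
      theta_eq (fun i => η (T.bE (t.1, i))) (hηb t.1 t.2) _ _ (hne t)
    rw [Finset.sum_congr rfl h2] at this
    exact this)
  simp only [wt]
  simp only [eps_swap (ρ _) (ς _)]
  exact hcp

include hc he hR hηb hηw in
theorem sign_pair {ρ ς : {t // t ≠ t0} → Fin 3} (h : T.St t0 ρ) (hne : ∀ t, ρ t ≠ ς t)
    (τ : Equiv.Perm {t // t ≠ t0})
    (hτ : ∀ t, T.c (τ t).1 (ρ (τ t)) = T.c t.1 (ς t)) : Equiv.Perm.sign τ = 1 := by
  classical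
  apply sign_eq_one_of_odd
  intro x
  obtain ⟨m, hm, -⟩ := T.cycle_pos hc he hR η hηb hηw h hne τ hτ x
  rw [hm]
  exact ⟨m + 1, by ring⟩

open Classical in
/-- the set of paired states -/
noncomputable def Pairs (t0 : B) : Finset (({t // t ≠ t0} → Fin 3) × ({t // t ≠ t0} → Fin 3)) :=
  univ.filter fun p => T.St t0 p.1 ∧ T.St t0 p.2 ∧ ∀ t, p.1 t ≠ p.2 t

theorem mem_Pairs {t0 : B} {p : ({t // t ≠ t0} → Fin 3) × ({t // t ≠ t0} → Fin 3)} :
    p ∈ T.Pairs t0 ↔ T.St t0 p.1 ∧ T.St t0 p.2 ∧ ∀ t, p.1 t ≠ p.2 t := by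
  simp only [Pairs, mem_filter, mem_univ, true_and]

include hc he hR hηb hηw in
theorem class_pos (hV : Fintype.card V = Fintype.card B + 2)
    (p0 : ({t // t ≠ t0} → Fin 3) × ({t // t ≠ t0} → Fin 3)) (hp0 : p0 ∈ T.Pairs t0) :
    ∃ c m, Fintype.card {t // t ≠ t0} = 2 * m + 3 * c ∧ Pos c ((-1) ^ m *
      ∑ p ∈ (T.Pairs t0).filter (fun p => p.1 + p.2 = p0.1 + p0.2),
        ∏ t, T.wt η t.1 (p.1 t) (p.2 t)) := by
  classical
  obtain ⟨ρ, ς⟩ := p0
  obtain ⟨hρ, hς, hne⟩ := T.mem_Pairs.1 hp0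
  simp only at hρ hς hne ⊢
  obtain ⟨τ, hτ⟩ := hρ.exists_perm hς hV hR
  let O := Quotient (Equiv.Perm.SameCycle.setoid τ)
  let κ : {t // t ≠ t0} → O := Quotient.mk _
  have hκ : ∀ t t', κ t = κ t' ↔ τ.SameCycle t t' := fun t t' => Quotient.eq
  have hκτ : ∀ t, κ (τ t) = κ t := fun t =>
    ((hκ _ _).2 (Equiv.Perm.SameCycle.refl τ t).apply_right).symm
  have hκs : Function.Surjective κ := Quotient.mk_surjective
  let fl : (O → Bool) → ({t // t ≠ t0} → Fin 3) := fun g t => if g (κ t) then ς t else ρ t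
  have hfl : ∀ g, T.St t0 (fl g) := by
    intro g
    constructor
    · intro t t' hh
      simp only [fl] at hh
      by_cases h1 : g (κ t) = true <;> by_cases h2 : g (κ t') = true
      · rw [if_pos h1, if_pos h2] at hh; exact hς.1 hh
      · rw [if_pos h1, if_neg h2, ← hτ] at hh
        have := hρ.1 hh
        rw [← this, hκτ] at h2
        exact absurd h1 h2
      · rw [if_neg h1, if_pos h2, ← hτ] at hh
        have := hρ.1 hh
        rw [this, hκτ] at h1
        exact absurd h2 h1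
      · rw [if_neg h1, if_neg h2] at hh; exact hρ.1 hh
    · intro t i
      simp only [fl]
      split_ifs
      · exact hς.2 t i
      · exact hρ.2 t i
  let u : {t // t ≠ t0} → Bool → ℚ[X] := fun t b =>
    if b then T.wt η t.1 (ς t) (ρ t) else T.wt η t.1 (ρ t) (ς t)
  have hsum : ∑ p ∈ (T.Pairs t0).filter (fun p => p.1 + p.2 = ρ + ς),
      ∏ t, T.wt η t.1 (p.1 t) (p.2 t) = ∑ g : O → Bool, ∏ t, u t (g (κ t)) := by
    symm
    apply Finset.sum_bij (fun g _ => (fl g, fl (fun q => !g q)))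
    · intro g _
      rw [mem_filter, mem_Pairs]
      refine ⟨⟨hfl g, hfl (fun q => !g q), fun t => ?_⟩, ?_⟩
      · simp only [fl]
        by_cases hb : g (κ t) = true
        · simpa [hb] using (hne t).symm
        · simpa [hb] using hne t
      · funext t
        simp only [fl, Pi.add_apply]
        by_cases hb : g (κ t) = true
        · simp [hb, add_comm]
        · simp [hb]
    · intro g _ g' _ hh
      funext q
      obtain ⟨t, rfl⟩ := hκs q
      have := congrFun (congrArg Prod.fst hh) t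
      simp only [fl] at this
      have h3 := hne t
      revert this
      cases g (κ t) <;> cases g' (κ t) <;> simp [h3, h3.symm]
    · rintro ⟨ρ', ς'⟩ hp
      rw [mem_filter, mem_Pairs] at hp
      obtain ⟨⟨hρ', hς', hne'⟩, hs⟩ := hp
      simp only at hρ' hς' hne' hs
      have hc : ∀ t, (ρ' t = ρ t ∧ ς' t = ς t) ∨ (ρ' t = ς t ∧ ς' t = ρ t) := fun t =>
        pair_cases _ _ _ _ (hne t) (hne' t) (congrFun hs t)
      have hinv : ∀ t, decide (ρ' (τ t) = ς (τ t)) = decide (ρ' t = ς t) := by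
        intro t
        rw [decide_eq_decide]
        by_cases htt : τ t = t
        · rw [htt]
        constructor
        · intro h1
          rcases hc t with h2 | h2
          · exfalso
            rcases hc (τ t) with h3 | h3
            · exact hne _ (h3.1.symm.trans h1)
            · apply htt
              apply hς'.1
              simp only
              rw [h3.2, hτ, h2.2]
          · exact h2.1
        · intro h1
          rcases hc (τ t) with h3 | h3
          · exfalso
            apply htt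
            apply hρ'.1
            simp only
            rw [h3.1, hτ, h1]
          · exact h3.1
      let g : O → Bool := Quotient.lift (fun t => decide (ρ' t = ς t)) (fun a b hab =>
        (perm_invariant τ (fun _ => True) (fun _ _ => trivial) (fun t => decide (ρ' t = ς t))
          (fun x _ => hinv x) trivial hab).symm)
      have hg : ∀ t, g (κ t) = decide (ρ' t = ς t) := fun t => rfl
      refine ⟨g, mem_univ _, ?_⟩
      ext t : 2
      · simp only [fl, hg]
        rcases hc t with h2 | h2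
        · simp [h2.1, hne t]
        · simp [h2.1]
      · simp only [fl, hg]
        rcases hc t with h2 | h2
        · simp [h2.1, h2.2, hne t]
        · simp [h2.1, h2.2]
    · intro g _
      apply Finset.prod_congr rfl
      intro t _
      simp only [fl, u]
      by_cases hb : g (κ t) = true <;> simp [hb]
  have hprod : ∑ g : O → Bool, ∏ t, u t (g (κ t)) =
      ∏ q : O, ∑ b : Bool, ∏ t ∈ univ.filter (fun t => κ t = q), u t b := by
    rw [Finset.prod_univ_sum, Fintype.piFinset_univ]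
    apply Finset.sum_congr rfl
    intro g _
    rw [← Finset.prod_fiberwise (s := univ) (g := κ)]
    apply Finset.prod_congr rfl
    intro q _
    apply Finset.prod_congr rfl
    intro t ht
    rw [(mem_filter.1 ht).2]
  have hq : ∀ q : O, ∃ m, (univ.filter (fun t => κ t = q)).card = 2 * m + 3 ∧
      Pos 1 ((-1) ^ m * ∑ b : Bool, ∏ t ∈ univ.filter (fun t => κ t = q), u t b) := by
    intro q
    obtain ⟨t1, rfl⟩ := hκs q
    have : (univ.filter (fun t => κ t = κ t1)) = univ.filter fun t => τ.SameCycle t1 t := by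
      apply Finset.filter_congr
      intro t _
      rw [eq_comm, hκ]
    rw [this, Fintype.sum_bool, add_comm]
    exact T.cycle_pos hc he hR η hηb hηw hρ hne τ hτ t1
  choose m hm hP using hq
  refine ⟨Fintype.card O, ∑ q, m q, ?_, ?_⟩
  · rw [← Finset.card_univ, Finset.card_eq_sum_card_fiberwise (f := κ) (t := univ)
      (fun _ _ => mem_coe.2 (mem_univ _))]
    simp only [hm, Finset.sum_add_distrib, Finset.mul_sum]
    simp [mul_comm]
  · rw [hsum, hprod, ← Finset.prod_pow_eq_pow_sum, ← Finset.prod_mul_distrib]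
    exact Pos.prod _ _ (fun q _ => hP q)

/-- the matrix of a state -/
def mat (t0 : B) (ρ : {t // t ≠ t0} → Fin 3) : Matrix {t // t ≠ t0} {t // t ≠ t0} ℚ :=
  fun t' t => ∑ j, eps (ρ t) j * (if T.c t'.1 (ρ t') = T.c t.1 j then 1 else 0)

include hc he hR hηb hηw in
open Classical in
theorem det_mat (hV : Fintype.card V = Fintype.card B + 2) (ρ : {t // t ≠ t0} → Fin 3)
    (hρ : T.St t0 ρ) : (T.mat t0 ρ).det =
      ∑ ς ∈ univ.filter (fun ς => T.St t0 ς ∧ ∀ t, ρ t ≠ ς t), ∏ t, eps (ρ t) (ς t) := by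
  rw [Matrix.det_apply']
  simp only [mat]
  simp only [Finset.prod_univ_sum, Fintype.piFinset_univ, Finset.mul_sum]
  rw [Finset.sum_comm, Finset.sum_filter]
  apply Finset.sum_congr rfl
  intro ς _
  simp only [Finset.prod_mul_distrib]
  split_ifs with h
  · obtain ⟨τ, hτ⟩ := hρ.exists_perm h.1 hV hR
    rw [Finset.sum_eq_single τ]
    · rw [T.sign_pair hc he hR η hηb hηw hρ h.2 τ hτ]
      simp [hτ]
    · intro σ _ hσ
      have : ∃ t, σ t ≠ τ t := by
        by_contra hcon
        push Not at hcon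
        exact hσ (Equiv.ext hcon)
      obtain ⟨t, ht⟩ := this
      rw [Finset.prod_eq_zero (f := fun t => if T.c (σ t).1 (ρ (σ t)) = T.c t.1 (ς t) then (1 : ℚ)
        else 0) (mem_univ t)]
      · simp
      · rw [if_neg]
        intro hh
        rw [← hτ] at hh
        exact ht (hρ.1 hh)
    · simp
  · apply Finset.sum_eq_zero
    intro σ _
    by_cases h1 : ∀ t, ρ t ≠ ς t
    · have : ∃ t, T.c (σ t).1 (ρ (σ t)) ≠ T.c t.1 (ς t) := by
        by_contra hcon
        push Not at hcon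
        apply h
        refine ⟨⟨?_, ?_⟩, h1⟩
        · intro t t' hh
          simp only at hh
          rw [← hcon, ← hcon] at hh
          exact σ.injective (hρ.1 hh)
        · intro t i
          rw [← hcon]
          exact hρ.2 _ i
      obtain ⟨t, ht⟩ := this
      rw [Finset.prod_eq_zero (f := fun t => if T.c (σ t).1 (ρ (σ t)) = T.c t.1 (ς t) then (1 : ℚ)
        else 0) (mem_univ t) (if_neg ht)]
      simp
    · push Not at h1
      obtain ⟨t, ht⟩ := h1
      rw [Finset.prod_eq_zero (f := fun t => eps (ρ t) (ς t)) (mem_univ t)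
        (by rw [ht, eps_self])]
      simp

include hc he hR in
theorem exists_det_ne (hV : Fintype.card V = Fintype.card B + 2) (hp : (T.Pairs t0).Nonempty) :
    ∃ ρ, T.St t0 ρ ∧ (T.mat t0 ρ).det ≠ 0 := by
  classical
  obtain ⟨η, hηb, hηw⟩ := T.exists_eta hc t0
  by_contra hcon
  push Not at hcon
  have h1 : ∑ p ∈ T.Pairs t0, ∏ t, T.wt η t.1 (p.1 t) (p.2 t) = 0 := by
    rw [Pairs, Finset.sum_filter, Fintype.sum_prod_type]
    apply Finset.sum_eq_zero
    intro ρ _
    by_cases hρ : T.St t0 ρ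
    · have h2 := T.det_mat hc he hR η hηb hηw hV ρ hρ
      rw [hcon ρ hρ, Finset.sum_filter] at h2
      simp only [hρ, true_and, wt, Finset.prod_mul_distrib, ← map_prod]
      have h3 := congrArg (fun x => C x * ∏ t : {t // t ≠ t0}, (1 + C (T.θ η t.1 (ρ t)) * X)) h2
      simp only [map_zero, zero_mul, map_sum, Finset.sum_mul] at h3
      refine Eq.trans ?_ h3.symm
      apply Finset.sum_congr rfl
      intro ς _
      split_ifs <;> simp
    · simp [hρ]
  rw [← Finset.sum_fiberwise_of_maps_to (t := (T.Pairs t0).image fun p => p.1 + p.2)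
    (g := fun p => p.1 + p.2) (fun p hp => mem_image_of_mem _ hp)] at h1
  refine ne_zero_of_classes _ (hp.image _) _ (Fintype.card {t // t ≠ t0}) ?_ h1
  intro o ho
  obtain ⟨p0, hp0, rfl⟩ := mem_image.1 ho
  exact T.class_pos hc he hR η hηb hηw hV p0 hp0

include hc he hR in
theorem exists_good_state (hV : Fintype.card V = Fintype.card B + 2)
    (hp : (T.Pairs t0).Nonempty) :
    ∃ ρ : B → Fin 3, T.IsSt t0 (fun t => T.c t (ρ t)) ∧
      ∀ f : V → ℚ, (∀ i, f (T.c t0 i) = 0) →
        (∀ t, t ≠ t0 → f (T.c t (ρ t + 1)) = f (T.c t (ρ t + 2))) → ∀ e, f (T.tl e) = 0 := by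
  obtain ⟨ρ, hρ, hdet⟩ := T.exists_det_ne hc he hR hV hp
  refine ⟨ext ρ 0, hρ.isSt, fun f hf0 hf e => ?_⟩
  have key : ∀ v, ∑ t' : {t // t ≠ t0}, f (T.c t'.1 (ρ t')) *
      (if T.c t'.1 (ρ t') = v then 1 else 0) = f v := by
    intro v
    by_cases hv : ∀ i, v ≠ T.c t0 i
    · obtain ⟨t, rfl⟩ := hρ.surj hV hR v hv
      rw [Finset.sum_eq_single t]
      · simp
      · intro t' _ ht'
        rw [if_neg (fun h => ht' (hρ.1 h)), mul_zero]
      · simp
    · push Not at hv
      obtain ⟨i, rfl⟩ := hv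
      rw [hf0]
      exact Finset.sum_eq_zero (fun t' _ => by rw [if_neg (hρ.2 t' i), mul_zero])
  have hg : (fun t' : {t // t ≠ t0} => f (T.c t'.1 (ρ t'))) = 0 := by
    apply Matrix.eq_zero_of_vecMul_eq_zero hdet
    funext t
    simp only [Matrix.vecMul, dotProduct, mat, Finset.mul_sum, Pi.zero_apply]
    rw [Finset.sum_comm]
    have : ∀ j, ∑ t' : {t // t ≠ t0}, f (T.c t'.1 (ρ t')) *
        (eps (ρ t) j * if T.c t'.1 (ρ t') = T.c t.1 j then 1 else 0) =
        eps (ρ t) j * f (T.c t.1 j) := by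
      intro j
      rw [← key, Finset.mul_sum]
      apply Finset.sum_congr rfl
      intro t' _
      ring
    simp only [this]
    rw [sum_eps (ρ t) (fun j => f (T.c t.1 j)), sub_eq_zero]
    have := hf t.1 t.2
    rwa [ext_val] at this
  by_cases hv : ∀ i, T.tl e ≠ T.c t0 i
  · obtain ⟨t, ht⟩ := hρ.surj hV hR _ hv
    rw [← ht]
    exact congrFun hg t
  · push Not at hv
    obtain ⟨i, hi⟩ := hv
    rw [hi, hf0]

end cyc

end Tri

end Crest.Agent.R039
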