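import Crest.Agent.R039.Basic

/-! Disc counts and the Jordan-type lemma for a cycle of a paired state. -/

set_option autoImplicit false
set_option linter.unusedSectionVars false
open Finset

namespace Crest.Agent.R039

theorem niff_l {p q : Prop} (h1 : p) (h2 : ¬ q) : ¬ (p ↔ q) := by tauto
theorem niff_r {p q : Prop} (h1 : ¬ p) (h2 : q) : ¬ (p ↔ q) := by tauto
theorem niff_or {p q : Prop} (h1 : ¬ (p ↔ q)) : p ∨ q := by tauto
theorem niff_nor {p q : Prop} (h1 : ¬ (p ↔ q)) : ¬ p ∨ ¬ q := by tauto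
theorem niff_not {p q : Prop} (h1 : ¬ (¬ p ↔ ¬ q)) : ¬ (p ↔ q) := by tauto

namespace Tri

variable {E B W V : Type} (T : Tri E B W V)
variable [Fintype E] [Fintype B] [Fintype W] [Fintype V]
variable [DecidableEq E] [DecidableEq B] [DecidableEq W] [DecidableEq V]

/-- corner `i` of the black triangle `t` -/
def c (t : B) (i : Fin 3) : V := T.tl (T.bE (t, i))

theorem card_side (P : Finset B) (Q : Finset W) :
    (univ.filter fun e => T.β e ∈ P ∨ T.ω e ∈ Q).card =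
      3 * P.card + (univ.filter fun e => T.β e ∉ P ∧ T.ω e ∈ Q).card := by
  rw [← T.card_filter_β, ← Finset.card_union_of_disjoint]
  · congr 1; ext e; simp only [mem_filter, mem_univ, true_and, mem_union]; tauto
  · rw [Finset.disjoint_left]; intro e; simp only [mem_filter, mem_univ, true_and]; tauto

theorem side_le (hc : T.ConnOff ∅) (P : Finset B) (Q : Finset W)
    (hne : (∃ t, t ∉ P) ∨ (∃ w, w ∉ Q))
    (hconn : ∀ h : V → ℚ, (∀ e, T.β e ∈ P ∨ T.ω e ∈ Q → h (T.hd e) = h (T.tl e)) →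
      ∃ l, ∀ e, T.β e ∈ P ∨ T.ω e ∈ Q → h (T.tl e) = l)
    (U : Finset V) (hU : ∀ u ∈ U, ∃ e, (T.β e ∈ P ∨ T.ω e ∈ Q) ∧ (u = T.tl e ∨ u = T.hd e)) :
    Q.card + U.card ≤ 2 * P.card + (univ.filter fun e => T.β e ∉ P ∧ T.ω e ∈ Q).card + 1 := by
  have := T.chi_le hc P Q U hne (univ.filter fun e => T.β e ∈ P ∨ T.ω e ∈ Q)
    (fun e he => by simpa using he) (fun h H u hu u' hu' => by
      have H' : ∀ e, T.β e ∈ P ∨ T.ω e ∈ Q → h (T.hd e) = h (T.tl e) :=
        fun e he => H e (by simpa using he)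
      obtain ⟨l, hl⟩ := hconn h H'
      have key : ∀ u ∈ U, h u = l := by
        intro u hu
        obtain ⟨e, he, rfl | rfl⟩ := hU u hu
        · exact hl e he
        · rw [H' e he]; exact hl e he
      rw [key u hu, key u' hu'])
  rw [T.card_side] at this
  omega

theorem conn_side (hc : T.ConnOff ∅) (P : Finset B) (Q : Finset W)
    (hne : (∃ t, t ∉ P) ∨ (∃ w, w ∉ Q)) (h : V → ℚ)
    (H : ∀ e, T.β e ∈ P ∨ T.ω e ∈ Q → h (T.hd e) = h (T.tl e)) (l : ℚ)
    (hl : ∀ e, ¬ (T.β e ∈ P ↔ T.ω e ∈ Q) → h (T.tl e) = l) (e : E)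
    (he : T.β e ∈ P ∨ T.ω e ∈ Q) : h (T.tl e) = l := by
  have kb : ∀ e, T.β e ∈ P → h (T.tl e) = h (T.tl (T.bE (T.β e, 0))) := by
    intro e he
    obtain ⟨i, hi⟩ := T.exists_bE e
    conv_lhs => rw [hi]
    exact T.const_b h _ (fun i => H _ (Or.inl (by simpa using he))) i
  have kw : ∀ e, T.ω e ∈ Q → h (T.tl e) = h (T.tl (T.wE (T.ω e, 0))) := by
    intro e he
    obtain ⟨i, hi⟩ := T.exists_wE e
    conv_lhs => rw [hi]
    exact T.const_w h _ (fun i => H _ (Or.inr (by simpa using he))) i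
  have := hc (fun t => t ∈ P ∧ h (T.tl (T.bE (t, 0))) ≠ l)
    (fun t => t ∈ Q ∧ h (T.tl (T.wE (t, 0))) ≠ l) (fun e _ => by
      constructor
      · rintro ⟨h1, h2⟩
        rw [← kb e h1] at h2
        have h3 : T.ω e ∈ Q := by
          by_contra h3
          exact h2 (hl e (niff_l h1 h3))
        exact ⟨h3, by rw [← kw e h3]; exact h2⟩
      · rintro ⟨h1, h2⟩
        rw [← kw e h1] at h2
        have h3 : T.β e ∈ P := by
          by_contra h3
          exact h2 (hl e (niff_r h3 h1))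
        exact ⟨h3, by rw [← kb e h3]; exact h2⟩)
  by_contra hne'
  have h1 : T.β e ∈ P ∧ h (T.tl (T.bE (T.β e, 0))) ≠ l := by
    rcases he with he | he
    · exact ⟨he, by rw [← kb e he]; exact hne'⟩
    · exact (this _ (T.ω e)).2 ⟨he, by rw [← kw e he]; exact hne'⟩
  rcases hne with ⟨t, ht⟩ | ⟨w, hw⟩
  · exact ht ((this t (T.ω e)).2 ((this _ _).1 h1)).1
  · exact hw ((this _ w).1 h1).1

/-- A state: each non-root black triangle gets one of its corners, injectively, avoiding the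
corners of the root. -/
structure IsSt (t0 : B) (r : B → V) : Prop where
  mem : ∀ t, t ≠ t0 → ∃ i, r t = T.c t i
  inj : ∀ t t', t ≠ t0 → t' ≠ t0 → r t = r t' → t = t'
  root : ∀ t, t ≠ t0 → ∀ i, r t ≠ T.c t0 i

theorem disc_in (hc : T.ConnOff ∅) {t0 : B} {r : B → V} (hr : T.IsSt t0 r)
    (P : Finset B) (Q : Finset W) (h0 : t0 ∉ P)
    (hconn : ∀ h : V → ℚ, (∀ e, T.β e ∈ P ∨ T.ω e ∈ Q → h (T.hd e) = h (T.tl e)) →
      ∃ l, ∀ e, T.β e ∈ P ∨ T.ω e ∈ Q → h (T.tl e) = l)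
    (hA : ∀ e, T.β e ∉ P → T.ω e ∈ Q →
      T.β e ≠ t0 ∧ (r (T.β e) = T.tl e ∨ r (T.β e) = T.hd e))
    (hinj : ∀ e e', T.β e ∉ P → T.ω e ∈ Q → T.ω e' ∈ Q → T.β e = T.β e' → e = e') :
    Q.card ≤ P.card + 1 := by
  set A := univ.filter fun e => T.β e ∉ P ∧ T.ω e ∈ Q with hAdef
  have hmem : ∀ t ∈ P ∪ A.image T.β, t ≠ t0 := by
    intro t ht
    rcases mem_union.1 ht with ht | ht
    · rintro rfl; exact h0 ht
    · obtain ⟨e, he, rfl⟩ := mem_image.1 ht
      simp only [hAdef, mem_filter, mem_univ, true_and] at he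
      exact (hA e he.1 he.2).1
  have := T.side_le hc P Q (Or.inl ⟨t0, h0⟩) hconn ((P ∪ A.image T.β).image r) (by
    intro u hu
    obtain ⟨t, ht, rfl⟩ := mem_image.1 hu
    rcases mem_union.1 ht with ht' | ht'
    · obtain ⟨i, hi⟩ := hr.mem t (hmem t ht)
      exact ⟨T.bE (t, i), Or.inl (by simpa using ht'), Or.inl hi⟩
    · obtain ⟨e, he, rfl⟩ := mem_image.1 ht'
      simp only [hAdef, mem_filter, mem_univ, true_and] at he
      exact ⟨e, Or.inr he.2, (hA e he.1 he.2).2⟩)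
  rw [Finset.card_image_of_injOn (fun t ht t' ht' h => hr.inj t t' (hmem t ht) (hmem t' ht') h),
    Finset.card_union_of_disjoint, Finset.card_image_of_injOn, ← hAdef] at this
  · omega
  · intro e he e' he' h
    simp only [hAdef, coe_filter, mem_univ, true_and, Set.mem_ofPred_eq] at he he'
    exact hinj e e' he.1 he.2 he'.2 h
  · rw [Finset.disjoint_left]
    intro t ht ht'
    obtain ⟨e, he, rfl⟩ := mem_image.1 ht'
    simp only [hAdef, mem_filter, mem_univ, true_and] at he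
    exact he.1 ht

theorem disc_out (hc : T.ConnOff ∅) {t0 : B} {r : B → V} (hr : T.IsSt t0 r)
    (hR : Function.Injective (T.c t0))
    (P : Finset B) (Q : Finset W) (h0 : t0 ∉ P) (hne : (∃ t, t ∈ P) ∨ (∃ w, w ∈ Q))
    (hconn : ∀ h : V → ℚ, (∀ e, T.β e ∉ P ∨ T.ω e ∉ Q → h (T.hd e) = h (T.tl e)) →
      ∃ l, ∀ e, T.β e ∉ P ∨ T.ω e ∉ Q → h (T.tl e) = l)
    (hA : ∀ e, T.β e ∈ P → T.ω e ∉ Q → (r (T.β e) = T.tl e ∨ r (T.β e) = T.hd e))
    (hinj : ∀ e e', T.β e ∈ P → T.ω e ∉ Q → T.ω e' ∉ Q → T.β e = T.β e' → e = e') :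
    P.card + 1 ≤ Q.card := by
  set A := univ.filter fun e => T.β e ∉ Pᶜ ∧ T.ω e ∈ Qᶜ with hAdef
  have hA' : ∀ e ∈ A, T.β e ∈ P ∧ T.ω e ∉ Q := by
    intro e he; simpa [hAdef] using he
  have hmem : ∀ t ∈ Pᶜ.erase t0 ∪ A.image T.β, t ≠ t0 := by
    intro t ht
    rcases mem_union.1 ht with ht | ht
    · exact (mem_erase.1 ht).1
    · obtain ⟨e, he, rfl⟩ := mem_image.1 ht
      intro h
      exact h0 (h ▸ (hA' e he).1)
  have := T.side_le hc Pᶜ Qᶜ (by simpa using hne) (by simpa only [mem_compl] using hconn)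
    ((Pᶜ.erase t0 ∪ A.image T.β).image r ∪ univ.image (T.c t0)) (by
    intro u hu
    rcases mem_union.1 hu with hu | hu
    · obtain ⟨t, ht, rfl⟩ := mem_image.1 hu
      rcases mem_union.1 ht with ht' | ht'
      · obtain ⟨i, hi⟩ := hr.mem t (hmem t ht)
        exact ⟨T.bE (t, i), Or.inl (by simpa using (mem_erase.1 ht').2), Or.inl hi⟩
      · obtain ⟨e, he, rfl⟩ := mem_image.1 ht'
        exact ⟨e, Or.inr (by simpa using (hA' e he).2), hA e (hA' e he).1 (hA' e he).2⟩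
    · obtain ⟨i, -, rfl⟩ := mem_image.1 hu
      exact ⟨T.bE (t0, i), Or.inl (by simpa using h0), Or.inl rfl⟩)
  rw [Finset.card_union_of_disjoint,
    Finset.card_image_of_injOn (fun t ht t' ht' h => hr.inj t t' (hmem t ht) (hmem t' ht') h),
    Finset.card_union_of_disjoint, Finset.card_image_of_injOn, ← hAdef,
    Finset.card_image_of_injective _ hR] at this
  · have h1 := Finset.card_erase_add_one (mem_compl.2 h0)
    have h2 := Finset.card_add_card_compl P
    have h3 := Finset.card_add_card_compl Q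
    have h4 := T.card_W
    simp only [card_univ, Fintype.card_fin] at this
    omega
  · intro e he e' he' h
    exact hinj e e' (hA' e he).1 (hA' e he).2 (hA' e' he').2 h
  · rw [Finset.disjoint_left]
    intro t ht ht'
    obtain ⟨e, he, rfl⟩ := mem_image.1 ht'
    exact mem_compl.1 (mem_erase.1 ht).2 (hA' e he).1
  · rw [Finset.disjoint_left]
    intro u hu hu'
    obtain ⟨t, ht, rfl⟩ := mem_image.1 hu
    obtain ⟨i, -, hi⟩ := mem_image.1 hu'
    exact hr.root t (hmem t ht) i hi.symm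

theorem sum_supp (C : Finset B) (a : B → E) (ha : ∀ t ∈ C, T.β (a t) = t) (f : E → ℚ)
    (hf : ∀ e, (∀ t ∈ C, e ≠ a t) → f e = 0) : ∑ e, f e = ∑ t ∈ C, f (a t) := by
  rw [← Finset.sum_image (s := C) (g := a) (f := f)]
  · symm
    apply Finset.sum_subset (subset_univ _)
    intro e _ he
    apply hf
    intro t ht h
    exact he (mem_image.2 ⟨t, ht, h.symm⟩)
  · intro t ht t' ht' h
    rw [← ha t ht, ← ha t' ht', h]

theorem sum_ind_b (P : Finset B) (f : E → ℚ) :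
    ∑ e, (if T.β e ∈ P then (1 : ℚ) else 0) * f e = ∑ t ∈ P, ∑ i, f (T.bE (t, i)) := by
  rw [T.sum_b]
  simp only [β_bE, ← Finset.mul_sum]
  simp [Finset.sum_ite_mem]

theorem sum_ind_w (P : Finset W) (f : E → ℚ) :
    ∑ e, (if T.ω e ∈ P then (1 : ℚ) else 0) * f e = ∑ t ∈ P, ∑ i, f (T.wE (t, i)) :=
  T.swap.sum_ind_b P f

/-- The Jordan-type lemma: a cycle `C` of a paired state has signed length `±3`, and the
circulation of `η` along it has the same sign. -/
theorem cycle_sign (hc : T.ConnOff ∅) {t0 : B}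
    (he : Fintype.card B + 2 ≤ (univ.image T.tl).card)
    {r : B → V} (hr : T.IsSt t0 r) (hR : Function.Injective (T.c t0))
    (η : E → ℚ) (hηb : ∀ t, t ≠ t0 → ∑ i, η (T.bE (t, i)) = 0)
    (hηw : ∀ w, ∑ i, η (T.wE (w, i)) = 1)
    (C : Finset B) (hC0 : t0 ∉ C) (hCne : C.Nonempty) (τ : B → B) (hτ : ∀ t ∈ C, τ t ∈ C)
    (hτi : ∀ t ∈ C, ∀ t' ∈ C, τ t = τ t' → t = t')
    (hmin : ∀ μ : B → ℚ, (∀ t ∈ C, μ (τ t) = μ t) → ∀ t ∈ C, ∀ t' ∈ C, μ t = μ t')
    (a : B → E) (ha : ∀ t ∈ C, T.β (a t) = t) (ε : B → ℚ)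
    (hε : ∀ t ∈ C, (ε t = 1 ∧ T.tl (a t) = r t ∧ T.hd (a t) = r (τ t)) ∨
      (ε t = -1 ∧ T.hd (a t) = r t ∧ T.tl (a t) = r (τ t))) :
    (∑ t ∈ C, ε t = 3 ∧ 0 < ∑ t ∈ C, ε t * η (a t)) ∨
      (∑ t ∈ C, ε t = -3 ∧ ∑ t ∈ C, ε t * η (a t) < 0) := by
  have hne0 : ∀ t ∈ C, t ≠ t0 := fun t ht h => hC0 (h ▸ ht)
  have hd : ∀ t ∈ C, ∀ h : V → ℚ,
      ε t * (h (T.hd (a t)) - h (T.tl (a t))) = h (r (τ t)) - h (r t) := by
    intro t ht h
    rcases hε t ht with ⟨h1, h2, h3⟩ | ⟨h1, h2, h3⟩ <;> rw [h1, h2, h3] <;> ring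
  have hεε : ∀ t ∈ C, ε t * ε t = 1 := by
    intro t ht
    rcases hε t ht with ⟨h1, -⟩ | ⟨h1, -⟩ <;> rw [h1] <;> norm_num
  have hshift : ∀ g : B → ℚ, ∑ t ∈ C, g (τ t) = ∑ t ∈ C, g t := by
    intro g
    have himg : C.image τ = C := by
      apply Finset.eq_of_subset_of_card_le
      · intro x hx
        obtain ⟨t, ht, rfl⟩ := mem_image.1 hx
        exact hτ t ht
      · rw [Finset.card_image_of_injOn (fun t ht t' ht' h => hτi t ht t' ht' h)]
    conv_rhs => rw [← himg]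
    rw [Finset.sum_image (fun t ht t' ht' h => hτi t ht t' ht' h)]
  set z : E → ℚ := fun e => if T.β e ∈ C ∧ e = a (T.β e) then ε (T.β e) else 0 with hz
  have hz0 : ∀ e, (∀ t ∈ C, e ≠ a t) → z e = 0 := by
    intro e H
    simp only [hz]
    rw [if_neg]
    rintro ⟨h1, h2⟩
    exact H _ h1 h2
  have hz1 : ∀ t ∈ C, z (a t) = ε t := by
    intro t ht
    simp only [hz, ha t ht]
    rw [if_pos ⟨ht, trivial⟩]
  obtain ⟨p, q, hpq⟩ := T.h1a hc t0 he z (by
    intro h
    rw [T.sum_supp C a ha _ (fun e H => by rw [hz0 e H, zero_mul])]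
    rw [Finset.sum_congr rfl (fun t ht => by rw [hz1 t ht, hd t ht h]), Finset.sum_sub_distrib,
      hshift (fun t => h (r t)), sub_self])
  obtain ⟨t1, ht1⟩ := hCne
  have hε1 : ε t1 ≠ 0 := by
    intro h
    have := hεε t1 ht1
    rw [h] at this; norm_num at this
  have hpq1 : p t1 ≠ q (T.ω (a t1)) := by
    intro h
    have := hpq (a t1)
    rw [hz1 t1 ht1, ha t1 ht1, h, sub_self] at this
    exact hε1 this
  obtain ⟨l, hl0, hl1⟩ : ∃ l, p t0 ≠ l ∧ (p t1 = l ∨ q (T.ω (a t1)) = l) := by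
    by_cases h : p t0 = p t1
    · exact ⟨_, h ▸ hpq1, Or.inr rfl⟩
    · exact ⟨_, h, Or.inl rfl⟩
  set P : Finset B := univ.filter fun t => p t = l with hP
  set Q : Finset W := univ.filter fun t => q t = l with hQ
  have hP0 : t0 ∉ P := by simpa [hP] using hl0
  set y : E → ℚ := fun e => (if T.β e ∈ P then (1 : ℚ) else 0) - (if T.ω e ∈ Q then 1 else 0)
    with hy
  have hcut : ∀ e, ¬ (T.β e ∈ P ↔ T.ω e ∈ Q) → ∃ t ∈ C, e = a t := by
    intro e H
    by_contra hcon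
    push Not at hcon
    have := hpq e
    rw [hz0 e hcon] at this
    apply H
    simp only [hP, hQ, mem_filter, mem_univ, true_and]
    rw [sub_eq_zero.1 this.symm]
  have hy0 : ∀ e, (∀ t ∈ C, e ≠ a t) → y e = 0 := by
    intro e H
    have : T.β e ∈ P ↔ T.ω e ∈ Q := by
      by_contra hcon
      obtain ⟨t, ht, h⟩ := hcut e hcon
      exact H t ht h
    simp only [hy, this, sub_self]
  have hμ : ∀ t ∈ C, ∀ t' ∈ C, ε t * y (a t) = ε t' * y (a t') := by
    apply hmin (fun t => ε t * y (a t))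
    intro t' ht'
    have ho := T.orth (fun t => if t ∈ P then (1 : ℚ) else 0) (fun t => if t ∈ Q then (1 : ℚ) else 0)
      (fun v => if v = r (τ t') then 1 else 0)
    change ∑ e, y e * _ = 0 at ho
    rw [T.sum_supp C a ha _ (fun e H => by rw [hy0 e H, zero_mul])] at ho
    have h2 : ∀ t ∈ C, y (a t) * ((if T.hd (a t) = r (τ t') then (1 : ℚ) else 0) -
        (if T.tl (a t) = r (τ t') then 1 else 0)) =
        (if t = t' then ε t * y (a t) else 0) - (if t = τ t' then ε t * y (a t) else 0) := by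
      intro t ht
      have h3 := hd t ht (fun v => if v = r (τ t') then 1 else 0)
      have h4 : (r (τ t) = r (τ t')) ↔ t = t' := by
        constructor
        · intro h
          exact hτi t ht t' ht' (hr.inj _ _ (hne0 _ (hτ t ht)) (hne0 _ (hτ t' ht')) h)
        · rintro rfl; rfl
      have h5 : (r t = r (τ t')) ↔ t = τ t' := by
        constructor
        · intro h
          exact hr.inj _ _ (hne0 _ ht) (hne0 _ (hτ t' ht')) h
        · rintro h; rw [← h]
      simp only [h4, h5] at h3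
      calc _ = (ε t * ε t) * (y (a t) * ((if T.hd (a t) = r (τ t') then (1 : ℚ) else 0) -
          (if T.tl (a t) = r (τ t') then 1 else 0))) := by rw [hεε t ht, one_mul]
        _ = ε t * y (a t) * (ε t * ((if T.hd (a t) = r (τ t') then (1 : ℚ) else 0) -
          (if T.tl (a t) = r (τ t') then 1 else 0))) := by ring
        _ = _ := by
          rw [h3]; split_ifs <;> ring
    rw [Finset.sum_congr rfl h2, Finset.sum_sub_distrib, Finset.sum_ite_eq', Finset.sum_ite_eq',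
      if_pos ht', if_pos (hτ t' ht')] at ho
    linarith
  set lam := ε t1 * y (a t1) with hlam
  have hya : ∀ t ∈ C, y (a t) = lam * ε t := by
    intro t ht
    rw [hlam, ← hμ t ht t1 ht1]
    linear_combination (-(y (a t))) * hεε t ht
  have hcut1 : ¬ (T.β (a t1) ∈ P ↔ T.ω (a t1) ∈ Q) := by
    simp only [hP, hQ, mem_filter, mem_univ, true_and, ha t1 ht1]
    rcases hl1 with h | h
    · rw [← h]; simp [hpq1.symm]
    · rw [← h]; simp [hpq1]
  have hlam1 : lam = 1 ∨ lam = -1 := by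
    have h1 : y (a t1) = 1 ∨ y (a t1) = -1 := by
      simp only [hy]
      split_ifs with h1 h2 h2
      · exact absurd (iff_of_true h1 h2) hcut1
      · left; ring
      · right; ring
      · exact absurd (iff_of_false h1 h2) hcut1
    rcases hε t1 ht1 with ⟨h2, -⟩ | ⟨h2, -⟩ <;> rcases h1 with h1 | h1 <;>
      simp [hlam, h1, h2]
  have hall : ∀ t ∈ C, ¬ (T.β (a t) ∈ P ↔ T.ω (a t) ∈ Q) := by
    intro t ht H
    have h1 := hya t ht
    simp only [hy, H, sub_self] at h1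
    have h2 := hεε t ht
    rcases hlam1 with h | h <;> rw [h] at h1
    · have : ε t = 0 := by linarith
      rw [this] at h2; norm_num at h2
    · have : ε t = 0 := by linarith
      rw [this] at h2; norm_num at h2
  have hbd : ∀ h : V → ℚ, (∀ e, ¬ (T.β e ∈ P ↔ T.ω e ∈ Q) → h (T.hd e) = h (T.tl e)) →
      ∀ e, ¬ (T.β e ∈ P ↔ T.ω e ∈ Q) → h (T.tl e) = h (r t1) := by
    intro h H e hcut'
    obtain ⟨t, ht, rfl⟩ := hcut e hcut'
    have h1 : ∀ t ∈ C, h (r (τ t)) = h (r t) := by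
      intro t ht
      have := hd t ht h
      rw [H _ (hall t ht), sub_self, mul_zero] at this
      linarith
    rw [← hmin (fun t => h (r t)) h1 t ht t1 ht1]
    rcases hε t ht with ⟨-, h2, -⟩ | ⟨-, -, h2⟩
    · rw [h2]
    · rw [h2, h1 t ht]
  have hrA : ∀ e, ¬ (T.β e ∈ P ↔ T.ω e ∈ Q) →
      T.β e ≠ t0 ∧ (r (T.β e) = T.tl e ∨ r (T.β e) = T.hd e) := by
    intro e hcut'
    obtain ⟨t, ht, rfl⟩ := hcut e hcut'
    rw [ha t ht]
    refine ⟨hne0 t ht, ?_⟩
    rcases hε t ht with ⟨-, h2, -⟩ | ⟨-, h2, -⟩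
    · exact Or.inl h2.symm
    · exact Or.inr h2.symm
  have hinj : ∀ e e', ¬ (T.β e ∈ P ↔ T.ω e ∈ Q) → ¬ (T.β e' ∈ P ↔ T.ω e' ∈ Q) →
      T.β e = T.β e' → e = e' := by
    intro e e' h1 h2 h3
    obtain ⟨t, ht, rfl⟩ := hcut e h1
    obtain ⟨t', ht', rfl⟩ := hcut e' h2
    rw [ha t ht, ha t' ht'] at h3
    rw [h3]
  have hneP : (∃ t, t ∈ P) ∨ (∃ w, w ∈ Q) := by
    by_cases h : T.β (a t1) ∈ P
    · exact Or.inl ⟨_, h⟩
    · exact Or.inr ⟨T.ω (a t1), (niff_or hcut1).resolve_left h⟩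
  have hin := T.disc_in hc hr P Q hP0 (fun h H => ⟨h (r t1), fun e he' =>
      T.conn_side hc P Q (Or.inl ⟨t0, hP0⟩) h H _ (hbd h (fun e he => H e (niff_or he))) e he'⟩)
    (fun e h1 h2 => hrA e (niff_r h1 h2))
    (fun e e' h1 h2 h3 h4 => hinj e e' (niff_r h1 h2) (niff_r (h4 ▸ h1) h3) h4)
  have hout := T.disc_out hc hr hR P Q hP0 hneP (fun h H => ⟨h (r t1), fun e he' =>
      T.conn_side hc Pᶜ Qᶜ (by simpa using hneP) h (by simpa only [mem_compl] using H) _
        (fun e he => hbd h (fun e he => H e (niff_nor he)) e (by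
          simp only [mem_compl] at he; exact niff_not he)) e
          (by simpa only [mem_compl] using he')⟩)
    (fun e h1 h2 => (hrA e (niff_l h1 h2)).2)
    (fun e e' h1 h2 h3 h4 => hinj e e' (niff_l h1 h2) (niff_l (h4 ▸ h1) h3) h4)
  have hQP : (Q.card : ℚ) = P.card + 1 := by exact_mod_cast le_antisymm hin hout
  have hsum : ∀ f : E → ℚ, lam * ∑ t ∈ C, ε t * f (a t) =
      ∑ t ∈ P, ∑ i, f (T.bE (t, i)) - ∑ t ∈ Q, ∑ i, f (T.wE (t, i)) := by
    intro f
    rw [← T.sum_ind_b, ← T.sum_ind_w, ← Finset.sum_sub_distrib, Finset.mul_sum]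
    simp only [← sub_mul]
    change _ = ∑ e, y e * f e
    rw [T.sum_supp C a ha _ (fun e H => by rw [hy0 e H, zero_mul])]
    apply Finset.sum_congr rfl
    intro t ht
    rw [hya t ht]; ring
  have s1 := hsum (fun _ => 1)
  have s2 := hsum η
  simp only [mul_one, Finset.sum_const, card_univ, Fintype.card_fin, nsmul_eq_mul] at s1
  rw [Finset.sum_eq_zero (fun t ht => hηb t (fun h => hP0 (h ▸ ht)))] at s2
  simp only [hηw, Finset.sum_const, nsmul_eq_mul, mul_one] at s2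
  have hP0' : (0 : ℚ) ≤ P.card := Nat.cast_nonneg _
  push_cast at s1
  rcases hlam1 with h | h <;> rw [h] at s1 s2
  · right; constructor <;> linarith
  · left; constructor <;> linarith

end Tri

end Crest.Agent.R039
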