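import Crest.Agent.R039.Det

/-! Existence of a paired state when there is no separating triangle with black inside. -/

set_option autoImplicit false
set_option linter.unusedSectionVars false
open Finset

namespace Crest.Agent.R039

theorem div_zero {E X : Type} [Fintype E] [Fintype X] [DecidableEq X] (a b : E → X) (y : E → ℚ)
    (x0 : X) (h : ∀ x, x ≠ x0 →
      ∑ e, y e * ((if a e = x then (1 : ℚ) else 0) - (if b e = x then 1 else 0)) = 0)
    (g : X → ℚ) : ∑ e, y e * (g (a e) - g (b e)) = 0 := by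
  have h1 : ∀ e, y e * (g (a e) - g (b e)) = ∑ x, (g x - g x0) *
      (y e * ((if a e = x then (1 : ℚ) else 0) - (if b e = x then 1 else 0))) := by
    intro e
    simp only [mul_sub, mul_ite, mul_one, mul_zero, Finset.sum_sub_distrib, Finset.sum_ite_eq,
      mem_univ, if_true]
    ring
  simp only [h1]
  rw [Finset.sum_comm]
  apply Finset.sum_eq_zero
  intro x _
  rw [← Finset.mul_sum]
  by_cases hx : x = x0
  · rw [hx, sub_self, zero_mul]
  · rw [h x hx, mul_zero]

theorem tri_count (S : Fin 3 → Prop) [DecidablePred S] :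
    (univ.filter S).card + (if ∀ i, S i then 1 else 0) =
      (univ.filter fun i => S i ∧ S (i + 1)).card + (if ∃ i, S i then 1 else 0) ∧
    2 * (univ.filter S).card ≤ (univ.filter fun i => S i ∧ S (i + 1)).card + 3 ∧
    (univ.filter S).card ≤ (univ.filter fun i => S i ∧ S (i + 1)).card + 1 := by
  simp only [Finset.card_filter, Fin.sum_univ_three, Fin.forall_fin_succ, Fin.exists_fin_succ]
  by_cases h0 : S 0 <;> by_cases h1 : S 1 <;> by_cases h2 : S 2 <;> simp [h0, h1, h2]

namespace Tri

variable {E B W V : Type} (T : Tri E B W V)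
variable [Fintype E] [Fintype B] [Fintype W] [Fintype V]
variable [DecidableEq E] [DecidableEq B] [DecidableEq W] [DecidableEq V]

/-- simple triangulation of the sphere -/
structure Good : Prop where
  conn : T.ConnOff ∅
  nopar : ∀ e e', T.tl e = T.tl e' → T.hd e = T.hd e' → e = e'
  noanti : ∀ e e', T.tl e = T.hd e' → T.hd e = T.tl e' → False
  euler : Fintype.card B + 2 ≤ (univ.image T.tl).card

theorem Good.c_inj {T : Tri E B W V} (h : T.Good) (t : B) : Function.Injective (T.c t) := by
  have key : ∀ i, T.c t i ≠ T.c t (i + 1) := by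
    intro i hi
    have : T.tl (T.bE (t, i)) = T.hd (T.bE (t, i)) := by rw [T.hb]; exact hi
    exact h.noanti _ _ this this.symm
  intro i j hij
  by_contra hne
  have : j = i + 1 ∨ i = j + 1 := by clear hij; revert i j; decide
  rcases this with rfl | rfl
  · exact key i hij
  · exact key j hij.symm

def cutA (P : Finset B) (Q : Finset W) : Finset E := univ.filter fun e => T.β e ∈ P ∧ T.ω e ∉ Q
def cutB (P : Finset B) (Q : Finset W) : Finset E := univ.filter fun e => T.β e ∉ P ∧ T.ω e ∈ Q

theorem mem_cutA {P : Finset B} {Q : Finset W} {e : E} :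
    e ∈ T.cutA P Q ↔ T.β e ∈ P ∧ T.ω e ∉ Q := by simp [cutA]
theorem mem_cutB {P : Finset B} {Q : Finset W} {e : E} :
    e ∈ T.cutB P Q ↔ T.β e ∉ P ∧ T.ω e ∈ Q := by simp [cutB]

theorem cut_card (P : Finset B) (Q : Finset W) :
    (T.cutA P Q).card + 3 * Q.card = (T.cutB P Q).card + 3 * P.card := by
  have h1 := T.card_side P Q
  have h2 := T.swap.card_side Q P
  simp only [swap_β, swap_ω, or_comm (a := T.ω _ ∈ Q), and_comm (a := T.ω _ ∉ Q)] at h2
  simp only [cutA, cutB]
  omega

theorem cut_cycle (P : Finset B) (Q : Finset W) (h : V → ℚ) :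
    ∑ e ∈ T.cutA P Q, (h (T.hd e) - h (T.tl e)) = ∑ e ∈ T.cutB P Q, (h (T.hd e) - h (T.tl e)) := by
  have := T.orth (fun t => if t ∈ P then (1 : ℚ) else 0) (fun t => if t ∈ Q then (1 : ℚ) else 0) h
  rw [← sub_eq_zero, ← this, cutA, cutB, Finset.sum_filter, Finset.sum_filter,
    ← Finset.sum_sub_distrib]
  apply Finset.sum_congr rfl
  intro e _
  by_cases h1 : T.β e ∈ P <;> by_cases h2 : T.ω e ∈ Q <;> simp [h1, h2]

theorem Good.cut_cases {T : Tri E B W V} (hG : T.Good) (P : Finset B) (Q : Finset W)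
    (h1 : (∃ t, t ∈ P) ∨ ∃ w, w ∈ Q) (h2 : (∃ t, t ∉ P) ∨ ∃ w, w ∉ Q) :
    6 ≤ (T.cutA P Q).card + 2 * (T.cutB P Q).card ∨
      ((T.cutA P Q).card = 3 ∧ (T.cutB P Q).card = 0) := by
  have hc := T.cut_card P Q
  have hpos : ¬ ((T.cutA P Q).card = 0 ∧ (T.cutB P Q).card = 0) := by
    rintro ⟨ha, hb⟩
    rw [Finset.card_eq_zero] at ha hb
    have := hG.conn (· ∈ P) (· ∈ Q) (fun e _ => by
      constructor
      · intro h; by_contra h'
        have : e ∈ T.cutA P Q := T.mem_cutA.2 ⟨h, h'⟩
        rw [ha] at this; simp at this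
      · intro h; by_contra h'
        have : e ∈ T.cutB P Q := T.mem_cutB.2 ⟨h', h⟩
        rw [hb] at this; simp at this)
    rcases h1 with ⟨t, ht⟩ | ⟨w, hw⟩ <;> rcases h2 with ⟨t', ht'⟩ | ⟨w', hw'⟩
    · exact ht' ((this t' (T.ω (T.bE (t, 0)))).2 ((this t _).1 ht))
    · exact hw' ((this t w').1 ht)
    · exact ht' ((this t' w).2 hw)
    · exact hw' ((this (T.β (T.wE (w, 0))) w').1 ((this _ w).2 hw))
  have h11 : ¬ ((T.cutA P Q).card = 1 ∧ (T.cutB P Q).card = 1) := by
    rintro ⟨ha, hb⟩
    obtain ⟨e1, he1⟩ := Finset.card_eq_one.1 ha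
    obtain ⟨e2, he2⟩ := Finset.card_eq_one.1 hb
    have hcyc := T.cut_cycle P Q
    simp only [he1, he2, Finset.sum_singleton] at hcyc
    have hl : T.tl e1 ≠ T.hd e1 := fun h => hG.noanti _ _ h h.symm
    have hhd : T.hd e2 = T.hd e1 := by
      have := hcyc (fun v => if v = T.hd e1 then 1 else 0)
      by_contra hcon
      simp only [if_true, hl, hcon, if_false] at this
      split_ifs at this <;> norm_num at this
    have htl : T.tl e2 = T.tl e1 := by
      have := hcyc (fun v => if v = T.tl e1 then 1 else 0)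
      by_contra hcon
      simp only [if_true, hl.symm, hcon, if_false] at this
      split_ifs at this <;> norm_num at this
    have := hG.nopar _ _ htl hhd
    have m1 : e1 ∈ T.cutA P Q := by rw [he1]; simp
    have m2 : e2 ∈ T.cutB P Q := by rw [he2]; simp
    rw [this] at m2
    exact (T.mem_cutB.1 m2).1 (T.mem_cutA.1 m1).1
  omega

/-- no separating triangle with black faces along it on the side away from `t0` -/
def NoSep (t0 : B) : Prop := ∀ (P : Finset B) (Q : Finset W), t0 ∉ P →
  (T.cutB P Q).card = 0 → (T.cutA P Q).card = 3 → Q = ∅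

theorem region_bound (hG : T.Good) {t0 : B} (hN : T.NoSep t0) (U : Finset V) (hU : U.Nonempty) :
    (univ.filter fun e => T.tl e ∈ U ∧ T.hd e ∈ U).card + 1 ≤ U.card ∨
    (univ.filter fun e => T.tl e ∈ U ∧ T.hd e ∈ U).card + 3 ≤
      (univ.filter fun t => t ≠ t0 ∧ ∀ i, T.c t i ∈ U).card + 2 * U.card := by
  classical
  set EU := univ.filter fun e => T.tl e ∈ U ∧ T.hd e ∈ U with hEU
  set N3 := univ.filter fun t => t ≠ t0 ∧ ∀ i, T.c t i ∈ U with hN3
  let st : Setoid (B ⊕ W) :=
    { r := fun x y => ∀ S : B ⊕ W → Prop,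
        (∀ e, e ∉ EU → (S (.inl (T.β e)) ↔ S (.inr (T.ω e)))) → (S x ↔ S y)
      iseqv := ⟨fun _ _ _ => Iff.rfl, fun h S hS => (h S hS).symm,
        fun h h' S hS => (h S hS).trans (h' S hS)⟩ }
  let O := Quotient st
  let κ : B ⊕ W → O := Quotient.mk st
  have hκs : Function.Surjective κ := Quotient.mk_surjective
  have hκe : ∀ e, e ∉ EU → κ (.inl (T.β e)) = κ (.inr (T.ω e)) :=
    fun e he => Quotient.sound (fun S hS => hS e he)
  have hκf : ∀ F : B ⊕ W → ℚ, (∀ e, e ∉ EU → F (.inl (T.β e)) = F (.inr (T.ω e))) →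
      ∃ G : O → ℚ, ∀ x, F x = G (κ x) := by
    intro F hF
    refine ⟨Quotient.lift F (fun a b hab => ?_), fun x => rfl⟩
    exact (hab (fun x => F x = F b) (fun e he => by rw [hF e he])).2 rfl
  obtain ⟨u0, hu0⟩ := hU
  have R1 : EU.card + 2 ≤ Fintype.card O + U.card := by
    let Φ : (E → ℚ) →ₗ[ℚ] (O ⊕ V → ℚ) :=
      { toFun := fun y x => ∑ e, y e * Sum.elim
          (fun q => (if κ (.inl (T.β e)) = q then (1 : ℚ) else 0) -
            (if κ (.inr (T.ω e)) = q then 1 else 0))
          (fun v => (if T.hd e = v then (1 : ℚ) else 0) - (if T.tl e = v then 1 else 0)) x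
        map_add' := by
          intro a b; funext w
          simp only [Pi.add_apply, add_mul, Finset.sum_add_distrib]
        map_smul' := by
          intro a b; funext w
          simp only [Pi.smul_apply, smul_eq_mul, RingHom.id_apply, Finset.mul_sum, mul_assoc] }
    have := card_le_of_inj Φ EU ((univ.erase (κ (.inl t0))).disjSum (U.erase u0)) (by
      intro y hy h0
      have hq := div_zero (fun e => κ (.inl (T.β e))) (fun e => κ (.inr (T.ω e))) y (κ (.inl t0))
        (fun q hq => h0 (.inl q) (by simpa using hq))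
      have hv := div_zero T.hd T.tl y u0 (fun v hv => by
        by_cases hvU : v ∈ U
        · exact h0 (.inr v) (by simpa using ⟨hv, hvU⟩)
        · apply Finset.sum_eq_zero
          intro e _
          by_cases he : e ∈ EU
          · have := (mem_filter.1 he).2
            rw [if_neg (fun h : T.hd e = v => hvU (h ▸ this.2)),
              if_neg (fun h : T.tl e = v => hvU (h ▸ this.1))]
            simp
          · rw [hy e he, zero_mul])
      obtain ⟨p, q, hpq⟩ := T.h1a hG.conn t0 hG.euler y hv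
      obtain ⟨G, hGx⟩ := hκf (Sum.elim p q) (fun e he => by
        have := hpq e
        rw [hy e he] at this
        exact sub_eq_zero.1 this.symm)
      have h3 := hq G
      simp only [← hGx, Sum.elim_inl, Sum.elim_inr, ← hpq] at h3
      funext e
      exact mul_self_eq_zero.1 ((Finset.sum_eq_zero_iff_of_nonneg
        (fun e _ => mul_self_nonneg (y e))).1 h3 e (mem_univ e)))
    have h2 := Finset.card_erase_add_one (mem_univ (κ (.inl t0)))
    have h3 := Finset.card_erase_add_one hu0
    simp only [Finset.card_disjSum, card_univ] at this h2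
    omega
  by_cases hO : Fintype.card O ≤ 1
  · left; omega
  right
  let P : O → Finset B := fun q => univ.filter fun t => κ (.inl t) = q
  let Q : O → Finset W := fun q => univ.filter fun t => κ (.inr t) = q
  have hPm : ∀ q t, t ∈ P q ↔ κ (.inl t) = q := by intro q t; simp only [P, mem_filter, mem_univ, true_and]
  have hQm : ∀ q t, t ∈ Q q ↔ κ (.inr t) = q := by intro q t; simp only [Q, mem_filter, mem_univ, true_and]
  have hA : ∀ q, T.cutA (P q) (Q q) ⊆ EU.filter fun e => κ (.inl (T.β e)) = q := by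
    intro q e he
    rw [mem_cutA, hPm, hQm] at he
    refine mem_filter.2 ⟨?_, he.1⟩
    by_contra h
    exact he.2 (hκe e h ▸ he.1)
  have hB : ∀ q, T.cutB (P q) (Q q) ⊆ EU.filter fun e => κ (.inr (T.ω e)) = q := by
    intro q e he
    rw [mem_cutB, hPm, hQm] at he
    refine mem_filter.2 ⟨?_, he.2⟩
    by_contra h
    exact he.1 ((hκe e h).trans he.2)
  have hq : ∀ q : O, 6 ≤ (EU.filter fun e => κ (.inl (T.β e)) = q).card +
      2 * (EU.filter fun e => κ (.inr (T.ω e)) = q).card +
      3 * (if κ (.inl t0) = q then 1 else 0) + 3 * (N3.filter fun t => κ (.inl t) = q).card := by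
    intro q
    have h1 := Finset.card_le_card (hA q)
    have h2 := Finset.card_le_card (hB q)
    have h3 := hG.cut_cases (P q) (Q q) (by
      obtain ⟨x, rfl⟩ := hκs q
      rcases x with t | w
      · exact Or.inl ⟨t, (hPm _ _).2 rfl⟩
      · exact Or.inr ⟨w, (hQm _ _).2 rfl⟩) (by
      obtain ⟨q', hq'⟩ := Fintype.exists_ne_of_one_lt_card (not_le.1 hO) q
      obtain ⟨x, rfl⟩ := hκs q'
      rcases x with t | w
      · exact Or.inl ⟨t, fun h => hq' ((hPm _ _).1 h)⟩
      · exact Or.inr ⟨w, fun h => hq' ((hQm _ _).1 h)⟩)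
    rcases h3 with h3 | ⟨h3, h4⟩
    · omega
    · by_cases h0 : κ (.inl t0) = q
      · rw [if_pos h0]; omega
      · have hP0 : t0 ∉ P q := fun h => h0 ((hPm _ _).1 h)
        have hQe := hN (P q) (Q q) hP0 h4 h3
        have h5 := T.cut_card (P q) (Q q)
        rw [h3, h4, hQe] at h5
        have : (P q).Nonempty := by
          rw [← Finset.card_pos]; simp only [card_empty] at h5; omega
        obtain ⟨t, ht⟩ := this
        have : 0 < (N3.filter fun t => κ (.inl t) = q).card := by
          rw [Finset.card_pos]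
          refine ⟨t, mem_filter.2 ⟨mem_filter.2 ⟨mem_univ _, fun h => hP0 (h ▸ ht), fun i => ?_⟩,
            (hPm _ _).1 ht⟩⟩
          have : T.bE (t, i) ∈ T.cutA (P q) (Q q) := by
            rw [mem_cutA, hQe]; simpa using ht
          exact (mem_filter.1 (mem_filter.1 (hA q this)).1).2.1
        omega
  have hs := Finset.sum_le_sum (s := univ) (fun q _ => hq q)
  simp only [Finset.sum_add_distrib, ← Finset.mul_sum] at hs
  rw [← Finset.card_eq_sum_card_fiberwise (t := univ) (fun _ _ => mem_coe.2 (mem_univ _)),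
    ← Finset.card_eq_sum_card_fiberwise (t := univ) (fun _ _ => mem_coe.2 (mem_univ _)),
    ← Finset.card_eq_sum_card_fiberwise (t := univ) (fun _ _ => mem_coe.2 (mem_univ _))] at hs
  have h1 : ∑ q : O, (if κ (.inl t0) = q then 1 else 0) = 1 := by
    rw [Finset.sum_eq_single (κ (.inl t0))]
    · simp
    · intro q _ hq; exact if_neg hq.symm
    · simp
  simp only [Finset.sum_const, card_univ, smul_eq_mul, h1] at hs
  omega

theorem card_filter_E (p : E → Prop) [DecidablePred p] (t0 : B) :
    (univ.filter p).card = (univ.filter fun i => p (T.bE (t0, i))).card +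
      ∑ t : {t // t ≠ t0}, (univ.filter fun i => p (T.bE (t.1, i))).card := by
  rw [Finset.card_filter, T.sum_b, Fintype.sum_eq_add_sum_subtype_ne _ t0]
  simp only [Finset.card_filter]

theorem hall_ineq (hG : T.Good) {t0 : B} (hN : T.NoSep t0) (U : Finset V) :
    ∑ v ∈ U, ((univ.filter fun e => T.tl e = v).card + if ∃ i, T.c t0 i = v then 1 else 0) ≤
      2 * U.card + (univ.filter fun t : {t // t ≠ t0} => ∃ i, T.c t.1 i ∈ U).card := by
  rcases U.eq_empty_or_nonempty with rfl | hU
  · simp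
  have h1 : ∑ v ∈ U, (univ.filter fun e => T.tl e = v).card =
      (univ.filter fun e => T.tl e ∈ U).card := by
    rw [Finset.card_eq_sum_card_fiberwise (f := T.tl) (t := U)
      (fun e he => mem_coe.2 (mem_filter.1 (mem_coe.1 he)).2)]
    apply Finset.sum_congr rfl
    intro v hv
    congr 1
    ext e
    simp only [mem_filter, mem_univ, true_and]
    exact ⟨fun h => ⟨h ▸ hv, h⟩, fun h => h.2⟩
  have h2 : ∑ v ∈ U, (if ∃ i, T.c t0 i = v then 1 else 0) =
      (univ.filter fun i => T.c t0 i ∈ U).card := by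
    rw [← Finset.card_filter]
    symm
    apply Finset.card_bij (fun i _ => T.c t0 i)
    · intro i hi
      exact mem_filter.2 ⟨(mem_filter.1 hi).2, i, rfl⟩
    · intro i _ j _ h; exact hG.c_inj t0 h
    · intro v hv
      obtain ⟨hv, i, rfl⟩ := mem_filter.1 hv
      exact ⟨i, mem_filter.2 ⟨mem_univ _, hv⟩, rfl⟩
  have h2' : (univ.filter fun i => T.c t0 i ∈ U).card ≤ U.card := by
    rw [← h2, ← Finset.card_filter]; exact Finset.card_filter_le _ _
  have h3 := T.card_filter_E (fun e => T.tl e ∈ U) t0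
  have h4 := T.card_filter_E (fun e => T.tl e ∈ U ∧ T.hd e ∈ U) t0
  simp only [T.hb] at h4
  have h5 := T.region_bound hG hN U hU
  have h6 : (univ.filter fun t => t ≠ t0 ∧ ∀ i, T.c t i ∈ U).card =
      ∑ t : {t // t ≠ t0}, if ∀ i, T.c t.1 i ∈ U then 1 else 0 := by
    rw [Finset.card_filter, Fintype.sum_eq_add_sum_subtype_ne _ t0]
    simp only [ne_eq, not_true, false_and, if_false, zero_add]
    apply Finset.sum_congr rfl
    intro t _
    simp [t.2]
  have h7 := Finset.sum_congr (s₁ := univ) rfl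
    (fun (t : {t // t ≠ t0}) _ => (tri_count (fun i => T.c t.1 i ∈ U)).1)
  have h8 := (tri_count (fun i => T.c t0 i ∈ U)).2
  simp only [Finset.sum_add_distrib] at h7 ⊢
  rw [Finset.card_filter (fun t : {t // t ≠ t0} => ∃ i, T.c t.1 i ∈ U), h1, h2, h3]
  rw [h4, h6] at h5
  simp only [c] at *
  omega

theorem pairs_nonempty (hG : T.Good) {t0 : B} (hN : T.NoSep t0)
    (hV : Fintype.card V = Fintype.card B + 2) : (T.Pairs t0).Nonempty := by
  classical
  let d : V → ℕ := fun v => (univ.filter fun e => T.tl e = v).card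
  let R : V → ℕ := fun v => if ∃ i, T.c t0 i = v then 1 else 0
  let cap : V → ℕ := fun v => d v + R v - 2
  obtain ⟨m, hminj, hm⟩ := (Finset.all_card_le_biUnion_card_iff_exists_injective
    (fun s : Σ v : V, Fin (cap v) =>
      univ.filter fun t : {t // t ≠ t0} => ∃ i, T.c t.1 i = s.1)).1 (by
    intro Y
    set U := Y.image Sigma.fst with hU
    have h1 : Y.card ≤ ∑ v ∈ U, cap v := by
      have : Y ⊆ U.sigma (fun v => univ) := by
        intro s hs
        exact mem_sigma.2 ⟨mem_image_of_mem _ hs, mem_univ _⟩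
      have := Finset.card_le_card this
      simpa [Finset.card_sigma] using this
    have h2 : ∑ v ∈ U, cap v + 2 * U.card = ∑ v ∈ U, (d v + R v) := by
      rw [Finset.card_eq_sum_ones, Finset.mul_sum, ← Finset.sum_add_distrib]
      apply Finset.sum_congr rfl
      intro v hv
      obtain ⟨s, -, rfl⟩ := mem_image.1 hv
      have := s.2.pos
      simp only [cap] at this ⊢
      omega
    have h3 := T.hall_ineq hG hN U
    have h4 : (univ.filter fun t : {t // t ≠ t0} => ∃ i, T.c t.1 i ∈ U) ⊆
        Y.biUnion fun s => univ.filter fun t : {t // t ≠ t0} => ∃ i, T.c t.1 i = s.1 := by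
      intro t ht
      obtain ⟨i, hi⟩ := (mem_filter.1 ht).2
      obtain ⟨s, hs, hsi⟩ := mem_image.1 hi
      exact mem_biUnion.2 ⟨s, hs, mem_filter.2 ⟨mem_univ _, i, hsi.symm⟩⟩
    have h5 := Finset.card_le_card h4
    simp only [d, R] at h2
    omega)
  have ho : ∀ t : {t // t ≠ t0}, ∃ i : Fin 3, ∀ s, m s = t → T.c t.1 i = s.1 := by
    intro t
    by_cases h : ∃ s, m s = t
    · obtain ⟨s, rfl⟩ := h
      obtain ⟨i, hi⟩ := (mem_filter.1 (hm s)).2
      exact ⟨i, fun s' hs' => by rw [hminj hs']; exact hi⟩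
    · exact ⟨0, fun s hs => absurd ⟨s, hs⟩ h⟩
  choose o ho using ho
  let I : V → Finset ({t // t ≠ t0} × Fin 3) := fun v =>
    univ.filter fun p => p.2 ≠ o p.1 ∧ T.c p.1.1 p.2 = v
  have hI : ∀ v, (I v).card + 2 * R v ≤ 2 := by
    intro v
    have h1 := T.card_filter_E (fun e => T.tl e = v) t0
    have h2 : R v ≤ (univ.filter fun i => T.tl (T.bE (t0, i)) = v).card := by
      simp only [R]
      split_ifs with h
      · obtain ⟨i, hi⟩ := h
        exact Finset.card_pos.2 ⟨i, mem_filter.2 ⟨mem_univ _, hi⟩⟩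
      · exact Nat.zero_le _
    have h3 : cap v ≤ (univ.filter fun t : {t // t ≠ t0} => T.c t.1 (o t) = v).card := by
      have := Finset.card_le_card_of_injOn (s := (univ : Finset (Fin (cap v))))
        (t := univ.filter fun t : {t // t ≠ t0} => T.c t.1 (o t) = v) (fun j => m ⟨v, j⟩)
        (fun j _ => mem_coe.2 (mem_filter.2 ⟨mem_univ _, ho _ ⟨v, j⟩ rfl⟩))
        (fun j _ j' _ h => by simpa using hminj h)
      simpa using this
    have h4 : ∑ t : {t // t ≠ t0}, (univ.filter fun i => T.tl (T.bE (t.1, i)) = v).card =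
        (I v).card + (univ.filter fun t : {t // t ≠ t0} => T.c t.1 (o t) = v).card := by
      simp only [I, Finset.card_filter, Fintype.sum_prod_type, ← Finset.sum_add_distrib]
      apply Finset.sum_congr rfl
      intro t _
      rw [Fintype.sum_eq_add_sum_compl (o t), Fintype.sum_eq_add_sum_compl (o t)]
      simp only [ne_eq, not_true, false_and, if_false, zero_add, c]
      rw [add_comm]
      congr 1
      apply Finset.sum_congr rfl
      intro i hi
      have : i ≠ o t := by simpa using hi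
      simp [this]
    simp only [cap, d] at h3
    omega
  have hroot : ∀ (t : {t // t ≠ t0}) j, j ≠ o t → ∀ i, T.c t.1 j ≠ T.c t0 i := by
    intro t j hj i h
    have h1 := hI (T.c t0 i)
    have h2 : R (T.c t0 i) = 1 := if_pos ⟨i, rfl⟩
    have h3 : 0 < (I (T.c t0 i)).card :=
      Finset.card_pos.2 ⟨(t, j), mem_filter.2 ⟨mem_univ _, hj, h⟩⟩
    omega
  obtain ⟨r, hrinj, hr⟩ := (Finset.all_card_le_biUnion_card_iff_exists_injective
    (fun t : {t // t ≠ t0} => (univ.erase (o t)).image (T.c t.1))).1 (by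
    intro X
    have h1 := Finset.card_le_mul_card_image_of_maps_to
      (s := X.sigma fun t => univ.erase (o t))
      (t := X.biUnion fun t => (univ.erase (o t)).image (T.c t.1)) (f := fun p => T.c p.1.1 p.2)
      (fun p hp => mem_biUnion.2 ⟨p.1, (mem_sigma.1 hp).1, mem_image_of_mem _ (mem_sigma.1 hp).2⟩)
      2 (fun v _ => by
        have h2 := hI v
        refine le_trans ?_ (le_trans (Nat.le_add_right _ _) h2)
        apply Finset.card_le_card_of_injOn (fun p => (p.1, p.2))
        · intro p hp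
          obtain ⟨hp1, hp2⟩ := mem_filter.1 (mem_coe.1 hp)
          exact mem_coe.2 (mem_filter.2 ⟨mem_univ _, (mem_erase.1 (mem_sigma.1 hp1).2).1, hp2⟩)
        · rintro ⟨a, b⟩ _ ⟨a', b'⟩ _ h
          simp only [Prod.mk.injEq] at h
          obtain ⟨rfl, rfl⟩ := h
          rfl)
    rw [Finset.card_sigma] at h1
    simp only [Finset.card_erase_of_mem (mem_univ _), card_univ, Fintype.card_fin,
      Finset.sum_const, smul_eq_mul] at h1
    omega)
  have hρ : ∀ t : {t // t ≠ t0}, ∃ i j : Fin 3, i ≠ o t ∧ j ≠ o t ∧ i ≠ j ∧ T.c t.1 i = r t := by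
    intro t
    obtain ⟨i, hi, hi'⟩ := mem_image.1 (hr t)
    have : ∀ a b : Fin 3, ∃ j, j ≠ a ∧ b ≠ j := by decide
    obtain ⟨j, hj, hj'⟩ := this (o t) i
    exact ⟨i, j, (mem_erase.1 hi).1, hj, hj', hi'⟩
  choose ρ ς h1 h2 h3 h4 using hρ
  have hStρ : T.St t0 ρ := ⟨fun t t' h => hrinj (by simpa only [h4] using h),
    fun t i => hroot t _ (h1 t) i⟩
  refine ⟨(ρ, ς), T.mem_Pairs.2 ⟨hStρ, ⟨fun t t' h => ?_, fun t i => hroot t _ (h2 t) i⟩, h3⟩⟩
  by_contra hne
  obtain ⟨t'', ht''⟩ := hStρ.surj hV (hG.c_inj t0) (T.c t.1 (ς t)) (hroot t _ (h2 t))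
  have h5 := hI (T.c t.1 (ς t))
  have h6 : 2 < (I (T.c t.1 (ς t))).card := by
    rw [Finset.two_lt_card_iff]
    refine ⟨(t, ς t), (t', ς t'), (t'', ρ t''), mem_filter.2 ⟨mem_univ _, h2 t, rfl⟩,
      mem_filter.2 ⟨mem_univ _, h2 t', h.symm⟩, mem_filter.2 ⟨mem_univ _, h1 t'', ht''⟩, ?_, ?_, ?_⟩
    · intro hh; exact hne (congrArg Prod.fst hh)
    · intro hh
      simp only [Prod.mk.injEq] at hh
      obtain ⟨rfl, hh⟩ := hh
      exact h3 _ hh.symm
    · intro hh
      simp only [Prod.mk.injEq] at hh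
      obtain ⟨rfl, hh⟩ := hh
      exact h3 _ hh.symm
  omega

end Tri

end Crest.Agent.R039
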